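import Mathlib

/-!
# P237, sharp route in `ℝ⁵`: the one-dimensional interface

For a profile `f` of the slices (the `i`-th slice has volume `κ₄ f⁴`) write `P = ∫ f³`, `Z = ∫ f⁴`.
`momW t (f t)` is the weighted moment `∫ x³ hw(t² + x²) (4 t² - x²)` over the slice replaced by a
ball. The weight is `1` inside the unit ball and decreases to `4/5`; with the decomposition of the
identity of the John position the `c`-average of `∫ momW t (f t)` is nonnegative.
-/

open MeasureTheory Set Real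

namespace Vale.Agent.P237.Sharp

/-- The radial weight, as a function of the squared norm. -/
noncomputable def hw5 (s : ℝ) : ℝ := 1 - 1 / 5 * min (max (s - 1) 0) 1

/-- The weighted moment of a slice at height `t` with radius `y`. -/
noncomputable def momW (t y : ℝ) : ℝ :=
  ∫ x in (0:ℝ)..y, x ^ 3 * hw5 (t ^ 2 + x ^ 2) * (4 * t ^ 2 - x ^ 2)

/-- `P^(4/3) / Z` at the ball. -/
noncomputable def cst5 : ℝ := (3 * π / 16) ^ (4 / 3 : ℝ) / (8 / 15)

/-- The one-dimensional inequality behind Petty's inequality in `ℝ⁵`. It is linear in the weighted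
moment, so it can be averaged over the contact directions. -/
def OneD5 : Prop :=
  ∀ f : ℝ → ℝ, ConcaveOn ℝ (Icc 0 1) f → AntitoneOn f (Icc 0 1) →
    (∀ t ∈ Icc (0:ℝ) 1, √(1 - t ^ 2) ≤ f t) →
    cst5 * (∫ t in (0:ℝ)..1, f t ^ 4) + 111 / 250 * (∫ t in (0:ℝ)..1, momW t (f t)) ≤
        (∫ t in (0:ℝ)..1, f t ^ 3) ^ (4 / 3 : ℝ) ∧
      (cst5 * (∫ t in (0:ℝ)..1, f t ^ 4) + 111 / 250 * (∫ t in (0:ℝ)..1, momW t (f t)) =
          (∫ t in (0:ℝ)..1, f t ^ 3) ^ (4 / 3 : ℝ) →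
        ∀ t ∈ Ioo (0:ℝ) 1, f t = √(1 - t ^ 2))

lemma hw5_mem (s : ℝ) : 4 / 5 ≤ hw5 s ∧ hw5 s ≤ 1 := by
  constructor <;>
    (have h1 : min (max (s - 1) 0) 1 ≤ 1 := min_le_right _ _
     have h2 : 0 ≤ min (max (s - 1) 0) 1 := le_min (le_max_right _ _) zero_le_one
     unfold hw5
     linarith)

@[fun_prop]
lemma continuous_hw5 : Continuous hw5 := by unfold hw5; fun_prop

/-- The bathtub monotonicity behind the averaged moment fact. -/
lemma hw5_radial_antitone {t : ℝ} (ht : t ∈ Icc (0:ℝ) 1) :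
    AntitoneOn (fun r => hw5 (t ^ 2 + r ^ 2) * (4 * t ^ 2 - r ^ 2)) (Ici 0) := by
  intro a ha b hb hab
  have ha' : 0 ≤ a := ha
  have ht2 : t ^ 2 ≤ 1 := pow_le_one₀ ht.1 ht.2
  have hab2 : a ^ 2 ≤ b ^ 2 := pow_le_pow_left₀ ha' hab 2
  set x := t ^ 2 + a ^ 2
  set y := t ^ 2 + b ^ 2
  have hxy : x ≤ y := by simp only [x, y]; linarith
  have ex : 4 * t ^ 2 - a ^ 2 = 5 * t ^ 2 - x := by simp only [x]; ring
  have ey : 4 * t ^ 2 - b ^ 2 = 5 * t ^ 2 - y := by simp only [y]; ring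
  show hw5 y * (4 * t ^ 2 - b ^ 2) ≤ hw5 x * (4 * t ^ 2 - a ^ 2)
  rw [ex, ey]
  have h1 : hw5 y ≤ hw5 x := by
    unfold hw5
    have : min (max (x - 1) 0) 1 ≤ min (max (y - 1) 0) 1 :=
      min_le_min (max_le_max (by linarith) le_rfl) le_rfl
    linarith
  obtain ⟨hy0, hy1⟩ := hw5_mem y
  rcases le_or_gt 2 x with hx2 | hx2
  · have e1 : hw5 x = 4 / 5 := by
      unfold hw5; rw [max_eq_left (by linarith), min_eq_right (by linarith)]; norm_num
    have e2 : hw5 y = 4 / 5 := by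
      unfold hw5; rw [max_eq_left (by linarith), min_eq_right (by linarith)]; norm_num
    rw [e1, e2]
    linarith
  rcases le_or_gt (5 * t ^ 2 - x) 0 with hneg | hpos
  · have hd : hw5 x - hw5 y ≤ 1 / 5 * (y - x) := by
      unfold hw5
      have : min (max (y - 1) 0) 1 - min (max (x - 1) 0) 1 ≤ y - x := by grind
      linarith
    nlinarith [mul_le_mul_of_nonneg_right hy0 (sub_nonneg.2 hxy), mul_nonneg ht.1 ht.1]
  · nlinarith [mul_le_mul_of_nonneg_right h1 hpos.le, mul_le_mul_of_nonneg_left hxy (le_trans (by norm_num : (0:ℝ) ≤ 4/5) hy0)]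

end Vale.Agent.P237.Sharp
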