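import Mathlib.Data.Real.Basic

/-!
# P237, sharp route in `ℝ⁵`: the polynomials behind the elementary inequalities

`c`, `q` are cosine and sine of the tangency angle and `r` is the length of the segment; the
functions ending in `N` are the homogenisations at `r = rn / rd`, `τ = tan (b/2)`.
-/

namespace Vale.Agent.P237.Sharp.OneD5

/-- `r⁻² ∫₀ʳ ξ y²`, `y = c + ξ q`. -/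
noncomputable def seg (c q r : ℝ) : ℝ :=
    (1 / 4 : ℝ) * q ^ 2 * r ^ 2 +
    (2 / 3 : ℝ) * c * q * r +
    (1 / 2 : ℝ) * c ^ 2

/-- `r⁻² ∫₀ʳ ξ y³`. -/
noncomputable def cube (c q r : ℝ) : ℝ :=
    (1 / 5 : ℝ) * q ^ 3 * r ^ 3 +
    (3 / 4 : ℝ) * c * q ^ 2 * r ^ 2 +
    (1 : ℝ) * c ^ 2 * q * r +
    (1 / 2 : ℝ) * c ^ 3

/-- `(111/250) r⁻² ∫₀ʳ ξ y³ (1 - ξ²/5) (4 t² - y²)`, `t = q - ξ c`. -/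
noncomputable def momA (c q r : ℝ) : ℝ :=
    (222 / 625 : ℝ) * q ^ 5 * r ^ 3 +
    (-999 / 8750 : ℝ) * q ^ 5 * r ^ 5 +
    (37 / 3750 : ℝ) * q ^ 5 * r ^ 7 +
    (333 / 250 : ℝ) * c * q ^ 4 * r ^ 2 +
    (-2849 / 2500 : ℝ) * c * q ^ 4 * r ^ 4 +
    (1443 / 10000 : ℝ) * c * q ^ 4 * r ^ 6 +
    (222 / 125 : ℝ) * c ^ 2 * q ^ 3 * r +
    (-10101 / 3125 : ℝ) * c ^ 2 * q ^ 3 * r ^ 3 +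
    (2997 / 4375 : ℝ) * c ^ 2 * q ^ 3 * r ^ 5 +
    (-74 / 1875 : ℝ) * c ^ 2 * q ^ 3 * r ^ 7 +
    (111 / 125 : ℝ) * c ^ 3 * q ^ 2 +
    (-9657 / 2500 : ℝ) * c ^ 3 * q ^ 2 * r ^ 2 +
    (1739 / 1250 : ℝ) * c ^ 3 * q ^ 2 * r ^ 4 +
    (-333 / 2500 : ℝ) * c ^ 3 * q ^ 2 * r ^ 6 +
    (-481 / 250 : ℝ) * c ^ 4 * q * r +
    (8103 / 6250 : ℝ) * c ^ 4 * q * r ^ 3 +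
    (-666 / 4375 : ℝ) * c ^ 4 * q * r ^ 5 +
    (-111 / 500 : ℝ) * c ^ 5 +
    (2331 / 5000 : ℝ) * c ^ 5 * r ^ 2 +
    (-37 / 625 : ℝ) * c ^ 5 * r ^ 4

/-- `∫₀ʳ ξ y²`. -/
noncomputable def segB (c q r : ℝ) : ℝ :=
    (1 / 4 : ℝ) * q ^ 2 * r ^ 4 +
    (2 / 3 : ℝ) * c * q * r ^ 3 +
    (1 / 2 : ℝ) * c ^ 2 * r ^ 2

/-- `∫₀ʳ ξ y³`. -/
noncomputable def cubeB (c q r : ℝ) : ℝ :=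
    (1 / 5 : ℝ) * q ^ 3 * r ^ 5 +
    (3 / 4 : ℝ) * c * q ^ 2 * r ^ 4 +
    (1 : ℝ) * c ^ 2 * q * r ^ 3 +
    (1 / 2 : ℝ) * c ^ 3 * r ^ 2

/-- `(111/250) ∫₀ʳ ξ y³ h (4 t² - y²)` for `r ≥ 1`. -/
noncomputable def momB (c q r : ℝ) : ℝ :=
    (1147 / 65625 : ℝ) * q ^ 5 +
    (888 / 3125 : ℝ) * q ^ 5 * r ^ 5 +
    (-222 / 4375 : ℝ) * q ^ 5 * r ^ 7 +
    (407 / 10000 : ℝ) * c * q ^ 4 +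
    (666 / 625 : ℝ) * c * q ^ 4 * r ^ 4 +
    (-481 / 625 : ℝ) * c * q ^ 4 * r ^ 6 +
    (-1258 / 65625 : ℝ) * c ^ 2 * q ^ 3 +
    (888 / 625 : ℝ) * c ^ 2 * q ^ 3 * r ^ 3 +
    (-7548 / 3125 : ℝ) * c ^ 2 * q ^ 3 * r ^ 5 +
    (888 / 4375 : ℝ) * c ^ 2 * q ^ 3 * r ^ 7 +
    (-74 / 625 : ℝ) * c ^ 3 * q ^ 2 +
    (444 / 625 : ℝ) * c ^ 3 * q ^ 2 * r ^ 2 +
    (-1887 / 625 : ℝ) * c ^ 3 * q ^ 2 * r ^ 4 +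
    (444 / 625 : ℝ) * c ^ 3 * q ^ 2 * r ^ 6 +
    (-407 / 4375 : ℝ) * c ^ 4 * q +
    (-962 / 625 : ℝ) * c ^ 4 * q * r ^ 3 +
    (2664 / 3125 : ℝ) * c ^ 4 * q * r ^ 5 +
    (37 / 5000 : ℝ) * c ^ 5 +
    (-111 / 625 : ℝ) * c ^ 5 * r ^ 2 +
    (222 / 625 : ℝ) * c ^ 5 * r ^ 4

/-- A lower bound for the excess along a cap whose left tangency is in `[0,1]`. -/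
noncomputable def lowMid (c q r : ℝ) : ℝ :=
    (81 / 100 : ℝ) * q ^ 2 * r ^ 5 +
    (9 / 5 : ℝ) * c * q * r ^ 4 +
    (1 : ℝ) * c ^ 2 * r ^ 3

/-- The algebraic part of the excess of a head cap. -/
noncomputable def excPoly (c q r : ℝ) : ℝ :=
    (1 : ℝ) * q ^ 4 * r ^ 3 +
    (-1 / 2 : ℝ) * c * q +
    (1 / 8 : ℝ) * c * q ^ 3 +
    (3 : ℝ) * c * q ^ 3 * r ^ 2 +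
    (-3 / 4 : ℝ) * c * q ^ 3 * r ^ 4 +
    (3 : ℝ) * c ^ 2 * q ^ 2 * r +
    (-2 : ℝ) * c ^ 2 * q ^ 2 * r ^ 3 +
    (7 / 8 : ℝ) * c ^ 3 * q +
    (-3 / 2 : ℝ) * c ^ 3 * q * r ^ 2

/-- The margin in the derivative bound of `lowMid`. -/
noncomputable def linPoly (c q r : ℝ) : ℝ :=
    (21 / 40 : ℝ) * q ^ 2 * r ^ 2 +
    (-93 / 200 : ℝ) * q ^ 2 * r ^ 4 +
    (2 / 5 : ℝ) * c * q * r +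
    (-71 / 50 : ℝ) * c * q * r ^ 3 +
    (-4 / 5 : ℝ) * c ^ 2 * r ^ 2

/-- `seg`. -/
noncomputable def segN (τ rn rd : ℝ) : ℝ :=
    (1 / 4 : ℝ) * (2 * τ) ^ 2 * (1 + τ ^ 2) ^ 3 * rn ^ 2 * rd ^ 5 +
    (2 / 3 : ℝ) * (1 - τ ^ 2) * (2 * τ) * (1 + τ ^ 2) ^ 3 * rn * rd ^ 6 +
    (1 / 2 : ℝ) * (1 - τ ^ 2) ^ 2 * (1 + τ ^ 2) ^ 3 * rd ^ 7

/-- The upper bound for the loss, `r ≤ 1`. -/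
noncomputable def qN (τ rn rd : ℝ) : ℝ :=
    (1 / 4000 : ℝ) * (2 * τ) ^ 2 * (1 + τ ^ 2) ^ 3 * rn ^ 2 * rd ^ 5 +
    (463 / 625 : ℝ) * (2 * τ) ^ 3 * (1 + τ ^ 2) ^ 2 * rn ^ 3 * rd ^ 4 +
    (222 / 625 : ℝ) * (2 * τ) ^ 5 * rn ^ 3 * rd ^ 4 +
    (-999 / 8750 : ℝ) * (2 * τ) ^ 5 * rn ^ 5 * rd ^ 2 +
    (37 / 3750 : ℝ) * (2 * τ) ^ 5 * rn ^ 7 +
    (1 / 1500 : ℝ) * (1 - τ ^ 2) * (2 * τ) * (1 + τ ^ 2) ^ 3 * rn * rd ^ 6 +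
    (1389 / 500 : ℝ) * (1 - τ ^ 2) * (2 * τ) ^ 2 * (1 + τ ^ 2) ^ 2 * rn ^ 2 * rd ^ 5 +
    (333 / 250 : ℝ) * (1 - τ ^ 2) * (2 * τ) ^ 4 * rn ^ 2 * rd ^ 5 +
    (-2849 / 2500 : ℝ) * (1 - τ ^ 2) * (2 * τ) ^ 4 * rn ^ 4 * rd ^ 3 +
    (1443 / 10000 : ℝ) * (1 - τ ^ 2) * (2 * τ) ^ 4 * rn ^ 6 * rd +
    (1 / 2000 : ℝ) * (1 - τ ^ 2) ^ 2 * (1 + τ ^ 2) ^ 3 * rd ^ 7 +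
    (463 / 125 : ℝ) * (1 - τ ^ 2) ^ 2 * (2 * τ) * (1 + τ ^ 2) ^ 2 * rn * rd ^ 6 +
    (222 / 125 : ℝ) * (1 - τ ^ 2) ^ 2 * (2 * τ) ^ 3 * rn * rd ^ 6 +
    (-10101 / 3125 : ℝ) * (1 - τ ^ 2) ^ 2 * (2 * τ) ^ 3 * rn ^ 3 * rd ^ 4 +
    (2997 / 4375 : ℝ) * (1 - τ ^ 2) ^ 2 * (2 * τ) ^ 3 * rn ^ 5 * rd ^ 2 +
    (-74 / 1875 : ℝ) * (1 - τ ^ 2) ^ 2 * (2 * τ) ^ 3 * rn ^ 7 +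
    (463 / 250 : ℝ) * (1 - τ ^ 2) ^ 3 * (1 + τ ^ 2) ^ 2 * rd ^ 7 +
    (111 / 125 : ℝ) * (1 - τ ^ 2) ^ 3 * (2 * τ) ^ 2 * rd ^ 7 +
    (-9657 / 2500 : ℝ) * (1 - τ ^ 2) ^ 3 * (2 * τ) ^ 2 * rn ^ 2 * rd ^ 5 +
    (1739 / 1250 : ℝ) * (1 - τ ^ 2) ^ 3 * (2 * τ) ^ 2 * rn ^ 4 * rd ^ 3 +
    (-333 / 2500 : ℝ) * (1 - τ ^ 2) ^ 3 * (2 * τ) ^ 2 * rn ^ 6 * rd +
    (-481 / 250 : ℝ) * (1 - τ ^ 2) ^ 4 * (2 * τ) * rn * rd ^ 6 +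
    (8103 / 6250 : ℝ) * (1 - τ ^ 2) ^ 4 * (2 * τ) * rn ^ 3 * rd ^ 4 +
    (-666 / 4375 : ℝ) * (1 - τ ^ 2) ^ 4 * (2 * τ) * rn ^ 5 * rd ^ 2 +
    (-111 / 500 : ℝ) * (1 - τ ^ 2) ^ 5 * rd ^ 7 +
    (2331 / 5000 : ℝ) * (1 - τ ^ 2) ^ 5 * rn ^ 2 * rd ^ 5 +
    (-37 / 625 : ℝ) * (1 - τ ^ 2) ^ 5 * rn ^ 4 * rd ^ 3

/-- `segB`. -/
noncomputable def segBN (τ rn rd : ℝ) : ℝ :=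
    (1 / 4 : ℝ) * (2 * τ) ^ 2 * (1 + τ ^ 2) ^ 3 * rn ^ 4 * rd ^ 3 +
    (2 / 3 : ℝ) * (1 - τ ^ 2) * (2 * τ) * (1 + τ ^ 2) ^ 3 * rn ^ 3 * rd ^ 4 +
    (1 / 2 : ℝ) * (1 - τ ^ 2) ^ 2 * (1 + τ ^ 2) ^ 3 * rn ^ 2 * rd ^ 5

/-- The upper bound for the loss, `r ≥ 1`. -/
noncomputable def qBN (τ rn rd : ℝ) : ℝ :=
    (1 / 4000 : ℝ) * (2 * τ) ^ 2 * (1 + τ ^ 2) ^ 3 * rn ^ 4 * rd ^ 3 +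
    (463 / 625 : ℝ) * (2 * τ) ^ 3 * (1 + τ ^ 2) ^ 2 * rn ^ 5 * rd ^ 2 +
    (1147 / 65625 : ℝ) * (2 * τ) ^ 5 * rd ^ 7 +
    (888 / 3125 : ℝ) * (2 * τ) ^ 5 * rn ^ 5 * rd ^ 2 +
    (-222 / 4375 : ℝ) * (2 * τ) ^ 5 * rn ^ 7 +
    (1 / 1500 : ℝ) * (1 - τ ^ 2) * (2 * τ) * (1 + τ ^ 2) ^ 3 * rn ^ 3 * rd ^ 4 +
    (1389 / 500 : ℝ) * (1 - τ ^ 2) * (2 * τ) ^ 2 * (1 + τ ^ 2) ^ 2 * rn ^ 4 * rd ^ 3 +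
    (407 / 10000 : ℝ) * (1 - τ ^ 2) * (2 * τ) ^ 4 * rd ^ 7 +
    (666 / 625 : ℝ) * (1 - τ ^ 2) * (2 * τ) ^ 4 * rn ^ 4 * rd ^ 3 +
    (-481 / 625 : ℝ) * (1 - τ ^ 2) * (2 * τ) ^ 4 * rn ^ 6 * rd +
    (1 / 2000 : ℝ) * (1 - τ ^ 2) ^ 2 * (1 + τ ^ 2) ^ 3 * rn ^ 2 * rd ^ 5 +
    (463 / 125 : ℝ) * (1 - τ ^ 2) ^ 2 * (2 * τ) * (1 + τ ^ 2) ^ 2 * rn ^ 3 * rd ^ 4 +
    (-1258 / 65625 : ℝ) * (1 - τ ^ 2) ^ 2 * (2 * τ) ^ 3 * rd ^ 7 +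
    (888 / 625 : ℝ) * (1 - τ ^ 2) ^ 2 * (2 * τ) ^ 3 * rn ^ 3 * rd ^ 4 +
    (-7548 / 3125 : ℝ) * (1 - τ ^ 2) ^ 2 * (2 * τ) ^ 3 * rn ^ 5 * rd ^ 2 +
    (888 / 4375 : ℝ) * (1 - τ ^ 2) ^ 2 * (2 * τ) ^ 3 * rn ^ 7 +
    (463 / 250 : ℝ) * (1 - τ ^ 2) ^ 3 * (1 + τ ^ 2) ^ 2 * rn ^ 2 * rd ^ 5 +
    (-74 / 625 : ℝ) * (1 - τ ^ 2) ^ 3 * (2 * τ) ^ 2 * rd ^ 7 +
    (444 / 625 : ℝ) * (1 - τ ^ 2) ^ 3 * (2 * τ) ^ 2 * rn ^ 2 * rd ^ 5 +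
    (-1887 / 625 : ℝ) * (1 - τ ^ 2) ^ 3 * (2 * τ) ^ 2 * rn ^ 4 * rd ^ 3 +
    (444 / 625 : ℝ) * (1 - τ ^ 2) ^ 3 * (2 * τ) ^ 2 * rn ^ 6 * rd +
    (-407 / 4375 : ℝ) * (1 - τ ^ 2) ^ 4 * (2 * τ) * rd ^ 7 +
    (-962 / 625 : ℝ) * (1 - τ ^ 2) ^ 4 * (2 * τ) * rn ^ 3 * rd ^ 4 +
    (2664 / 3125 : ℝ) * (1 - τ ^ 2) ^ 4 * (2 * τ) * rn ^ 5 * rd ^ 2 +
    (37 / 5000 : ℝ) * (1 - τ ^ 2) ^ 5 * rd ^ 7 +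
    (-111 / 625 : ℝ) * (1 - τ ^ 2) ^ 5 * rn ^ 2 * rd ^ 5 +
    (222 / 625 : ℝ) * (1 - τ ^ 2) ^ 5 * rn ^ 4 * rd ^ 3

/-- `lowMid / J₀`. -/
noncomputable def lowN (τ rn rd : ℝ) : ℝ :=
    (17577 / 12800 : ℝ) * (2 * τ) ^ 2 * rn ^ 5 +
    (1953 / 640 : ℝ) * (1 - τ ^ 2) * (2 * τ) * rn ^ 4 * rd +
    (217 / 128 : ℝ) * (1 - τ ^ 2) ^ 2 * rn ^ 3 * rd ^ 2

/-- The lower bound for `excess / J₀`, times `15 + 9 τ²`. -/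
noncomputable def excN (τ rn rd : ℝ) : ℝ :=
    (-9765 / 512 : ℝ) * (1 + τ ^ 2) ^ 4 * τ * rd ^ 4 +
    (-651 / 128 : ℝ) * (1 + τ ^ 2) ^ 4 * τ ^ 3 * rd ^ 4 +
    (3255 / 128 : ℝ) * (2 * τ) ^ 4 * rn ^ 3 * rd +
    (1953 / 128 : ℝ) * (2 * τ) ^ 4 * τ ^ 2 * rn ^ 3 * rd +
    (-3255 / 256 : ℝ) * (1 - τ ^ 2) * (2 * τ) * (1 + τ ^ 2) ^ 2 * rd ^ 4 +
    (-1953 / 256 : ℝ) * (1 - τ ^ 2) * (2 * τ) * (1 + τ ^ 2) ^ 2 * τ ^ 2 * rd ^ 4 +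
    (3255 / 1024 : ℝ) * (1 - τ ^ 2) * (2 * τ) ^ 3 * rd ^ 4 +
    (1953 / 1024 : ℝ) * (1 - τ ^ 2) * (2 * τ) ^ 3 * τ ^ 2 * rd ^ 4 +
    (9765 / 128 : ℝ) * (1 - τ ^ 2) * (2 * τ) ^ 3 * rn ^ 2 * rd ^ 2 +
    (5859 / 128 : ℝ) * (1 - τ ^ 2) * (2 * τ) ^ 3 * τ ^ 2 * rn ^ 2 * rd ^ 2 +
    (-9765 / 512 : ℝ) * (1 - τ ^ 2) * (2 * τ) ^ 3 * rn ^ 4 +
    (-5859 / 512 : ℝ) * (1 - τ ^ 2) * (2 * τ) ^ 3 * τ ^ 2 * rn ^ 4 +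
    (9765 / 128 : ℝ) * (1 - τ ^ 2) ^ 2 * (2 * τ) ^ 2 * rn * rd ^ 3 +
    (5859 / 128 : ℝ) * (1 - τ ^ 2) ^ 2 * (2 * τ) ^ 2 * τ ^ 2 * rn * rd ^ 3 +
    (-3255 / 64 : ℝ) * (1 - τ ^ 2) ^ 2 * (2 * τ) ^ 2 * rn ^ 3 * rd +
    (-1953 / 64 : ℝ) * (1 - τ ^ 2) ^ 2 * (2 * τ) ^ 2 * τ ^ 2 * rn ^ 3 * rd +
    (22785 / 1024 : ℝ) * (1 - τ ^ 2) ^ 3 * (2 * τ) * rd ^ 4 +
    (13671 / 1024 : ℝ) * (1 - τ ^ 2) ^ 3 * (2 * τ) * τ ^ 2 * rd ^ 4 +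
    (-9765 / 256 : ℝ) * (1 - τ ^ 2) ^ 3 * (2 * τ) * rn ^ 2 * rd ^ 2 +
    (-5859 / 256 : ℝ) * (1 - τ ^ 2) ^ 3 * (2 * τ) * τ ^ 2 * rn ^ 2 * rd ^ 2

/-- `linPoly`. -/
noncomputable def linN (τ rn rd : ℝ) : ℝ :=
    (21 / 40 : ℝ) * (2 * τ) ^ 2 * rn ^ 2 * rd ^ 2 +
    (-93 / 200 : ℝ) * (2 * τ) ^ 2 * rn ^ 4 +
    (2 / 5 : ℝ) * (1 - τ ^ 2) * (2 * τ) * rn * rd ^ 3 +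
    (-71 / 50 : ℝ) * (1 - τ ^ 2) * (2 * τ) * rn ^ 3 * rd +
    (-4 / 5 : ℝ) * (1 - τ ^ 2) ^ 2 * rn ^ 2 * rd ^ 2

/-- The inequality on `[0,1]`. -/
noncomputable def midPoly (τ σ : ℝ) : ℝ :=
  4 * (13733 / 16384 : ℝ) * (3 * ((1 + (τ * σ) ^ 2) * (1 + τ ^ 2) ^ 2) + 2 * lowN τ (τ * σ) 1) * segN τ (τ * σ) 1 -
    (3 * ((1 + (τ * σ) ^ 2) * (1 + τ ^ 2) ^ 2) + lowN τ (τ * σ) 1) * qN τ (τ * σ) 1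

/-- The inequality for a head cap, `r ≤ 1`. -/
noncomputable def headPoly (τ rn rd : ℝ) : ℝ :=
  4 * (13733 / 16384 : ℝ) * (3 * ((15 + 9 * τ ^ 2) * (1 + τ ^ 2) ^ 4 * rd ^ 4) + 2 * excN τ rn rd) * segN τ rn rd -
    (3 * ((15 + 9 * τ ^ 2) * (1 + τ ^ 2) ^ 4 * rd ^ 4) + excN τ rn rd) * qN τ rn rd

/-- The shifted excess, `r ≥ 1`. -/
noncomputable def excB (τ rn rd : ℝ) : ℝ :=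
  5 / 8 * excN τ rn rd - 3 / 8 * ((15 + 9 * τ ^ 2) * (1 + τ ^ 2) ^ 4 * rd ^ 4)

/-- The inequality for a head cap, `r ≥ 1`. -/
noncomputable def headBPoly (τ rn rd : ℝ) : ℝ :=
  4 * ((13733 / 16384 : ℝ) * (299 / 256 : ℝ)) * (3 * ((15 + 9 * τ ^ 2) * (1 + τ ^ 2) ^ 4 * rd ^ 4) + 2 * excB τ rn rd) *
      segBN τ rn rd -
    (3 * ((15 + 9 * τ ^ 2) * (1 + τ ^ 2) ^ 4 * rd ^ 4) + excB τ rn rd) * qBN τ rn rd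

end Vale.Agent.P237.Sharp.OneD5
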