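import Mathlib
import Vale.Agent.P237.Sharp.OneD5.Spec
import Vale.Agent.P237.Sharp.OneD5.Poly

/-!
# P237, sharp route in `ℝ⁵`: antiderivatives along a segment
-/

namespace Vale.Agent.P237.Sharp.OneD5

/-- An antiderivative of the loss along a segment, `(1 - x ^ 2 / 5)`. -/
noncomputable def antiA (c q x : ℝ) : ℝ :=
      (cst5 * ((2 : ℝ) * c ^ 3) + ((111 / 125 : ℝ) * c ^ 3 * q ^ 2 + (-111 / 500 : ℝ) * c ^ 5)) * x ^ 2 +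
      (cst5 * ((4 : ℝ) * c ^ 2 * q) + ((222 / 125 : ℝ) * c ^ 2 * q ^ 3 + (-481 / 250 : ℝ) * c ^ 4 * q)) * x ^ 3 +
      (cst5 * ((3 : ℝ) * c * q ^ 2) + ((333 / 250 : ℝ) * c * q ^ 4 + (-9657 / 2500 : ℝ) * c ^ 3 * q ^ 2 + (2331 / 5000 : ℝ) * c ^ 5)) * x ^ 4 +
      (cst5 * ((4 / 5 : ℝ) * q ^ 3) + ((222 / 625 : ℝ) * q ^ 5 + (-10101 / 3125 : ℝ) * c ^ 2 * q ^ 3 + (8103 / 6250 : ℝ) * c ^ 4 * q)) * x ^ 5 +
      (((-2849 / 2500 : ℝ) * c * q ^ 4 + (1739 / 1250 : ℝ) * c ^ 3 * q ^ 2 + (-37 / 625 : ℝ) * c ^ 5)) * x ^ 6 +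
      (((-999 / 8750 : ℝ) * q ^ 5 + (2997 / 4375 : ℝ) * c ^ 2 * q ^ 3 + (-666 / 4375 : ℝ) * c ^ 4 * q)) * x ^ 7 +
      (((1443 / 10000 : ℝ) * c * q ^ 4 + (-333 / 2500 : ℝ) * c ^ 3 * q ^ 2)) * x ^ 8 +
      (((37 / 3750 : ℝ) * q ^ 5 + (-74 / 1875 : ℝ) * c ^ 2 * q ^ 3)) * x ^ 9

set_option maxHeartbeats 1000000 in
lemma hasDerivAt_antiA (c q x : ℝ) : HasDerivAt (antiA c q)
    (x * (4 * cst5 * (c + q * x) ^ 3 + 111 / 250 *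
      ((c + q * x) ^ 3 * (1 - x ^ 2 / 5) * (4 * (q - c * x) ^ 2 - (c + q * x) ^ 2)))) x := by
  unfold antiA
  refine (((((((((hasDerivAt_pow 2 x).const_mul _).fun_add
      ((hasDerivAt_pow 3 x).const_mul _)).fun_add
      ((hasDerivAt_pow 4 x).const_mul _)).fun_add
      ((hasDerivAt_pow 5 x).const_mul _)).fun_add
      ((hasDerivAt_pow 6 x).const_mul _)).fun_add
      ((hasDerivAt_pow 7 x).const_mul _)).fun_add
      ((hasDerivAt_pow 8 x).const_mul _)).fun_add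
      ((hasDerivAt_pow 9 x).const_mul _)).congr_deriv ?_
  norm_num
  ring

/-- An antiderivative of the loss along a segment, `(4 / 5 : ℝ)`. -/
noncomputable def antiB (c q x : ℝ) : ℝ :=
      (cst5 * ((2 : ℝ) * c ^ 3) + ((444 / 625 : ℝ) * c ^ 3 * q ^ 2 + (-111 / 625 : ℝ) * c ^ 5)) * x ^ 2 +
      (cst5 * ((4 : ℝ) * c ^ 2 * q) + ((888 / 625 : ℝ) * c ^ 2 * q ^ 3 + (-962 / 625 : ℝ) * c ^ 4 * q)) * x ^ 3 +
      (cst5 * ((3 : ℝ) * c * q ^ 2) + ((666 / 625 : ℝ) * c * q ^ 4 + (-1887 / 625 : ℝ) * c ^ 3 * q ^ 2 + (222 / 625 : ℝ) * c ^ 5)) * x ^ 4 +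
      (cst5 * ((4 / 5 : ℝ) * q ^ 3) + ((888 / 3125 : ℝ) * q ^ 5 + (-7548 / 3125 : ℝ) * c ^ 2 * q ^ 3 + (2664 / 3125 : ℝ) * c ^ 4 * q)) * x ^ 5 +
      (((-481 / 625 : ℝ) * c * q ^ 4 + (444 / 625 : ℝ) * c ^ 3 * q ^ 2)) * x ^ 6 +
      (((-222 / 4375 : ℝ) * q ^ 5 + (888 / 4375 : ℝ) * c ^ 2 * q ^ 3)) * x ^ 7

set_option maxHeartbeats 1000000 in
lemma hasDerivAt_antiB (c q x : ℝ) : HasDerivAt (antiB c q)
    (x * (4 * cst5 * (c + q * x) ^ 3 + 111 / 250 *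
      ((c + q * x) ^ 3 * (4 / 5 : ℝ) * (4 * (q - c * x) ^ 2 - (c + q * x) ^ 2)))) x := by
  unfold antiB
  refine (((((((hasDerivAt_pow 2 x).const_mul _).fun_add
      ((hasDerivAt_pow 3 x).const_mul _)).fun_add
      ((hasDerivAt_pow 4 x).const_mul _)).fun_add
      ((hasDerivAt_pow 5 x).const_mul _)).fun_add
      ((hasDerivAt_pow 6 x).const_mul _)).fun_add
      ((hasDerivAt_pow 7 x).const_mul _)).congr_deriv ?_
  norm_num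
  ring

lemma antiA_eq (c q r : ℝ) : antiA c q r = r ^ 2 * (4 * cst5 * cube c q r + momA c q r) := by
  simp only [antiA, cube, momA]
  ring

lemma antiB_eq (c q r : ℝ) :
    antiA c q 1 + (antiB c q r - antiB c q 1) = 4 * cst5 * cubeB c q r + momB c q r := by
  simp only [antiA, antiB, cubeB, momB]
  ring

end Vale.Agent.P237.Sharp.OneD5
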