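import Mathlib.Data.Real.Basic
import Mathlib.Tactic.Positivity
import Mathlib.Tactic.Linarith

/-!
# P237, sharp route in `ℝ⁵`: Bernstein polynomials given by their coefficients
-/

namespace Vale.Agent.P237.Sharp.OneD5

/-- A binary form with natural coefficients, in Horner form. -/
def bez : List ℕ → ℝ → ℝ → ℝ
  | [], _, _ => 0
  | a :: l, z, w => (a : ℝ) * w ^ l.length + z * bez l z w

/-- A form in two pairs of variables with natural coefficients, in Horner form. -/
def bez2 : List (List ℕ) → ℝ → ℝ → ℝ → ℝ → ℝ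
  | [], _, _, _, _ => 0
  | r :: l, u, v, z, w => bez r z w * v ^ l.length + u * bez2 l u v z w

lemma bez_nonneg (l : List ℕ) {z w : ℝ} (hz : 0 ≤ z) (hw : 0 ≤ w) : 0 ≤ bez l z w := by
  induction l with
  | nil => exact le_rfl
  | cons a l ih =>
    have := pow_nonneg hw l.length
    simp only [bez]
    positivity

lemma bez2_nonneg (l : List (List ℕ)) {u v z w : ℝ} (hu : 0 ≤ u) (hv : 0 ≤ v) (hz : 0 ≤ z)
    (hw : 0 ≤ w) : 0 ≤ bez2 l u v z w := by
  induction l with
  | nil => exact le_rfl
  | cons r l ih =>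
    have := bez_nonneg r hz hw
    simp only [bez2]
    positivity

end Vale.Agent.P237.Sharp.OneD5
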