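import Mathlib.Data.Real.Basic
import Mathlib.Algebra.Order.Field.Basic
import Mathlib.Tactic.Ring
import Mathlib.Tactic.Positivity
import Mathlib.Tactic.Linarith
import Mathlib.Tactic.FieldSimp
import Mathlib.Tactic.LinearCombination
import Vale.Agent.P237.Sharp.OneD5.Bernstein

/-!
# P237, sharp route in `ℝ⁵`: polynomial identities checked by the kernel

A polynomial expression in two variables has a table of integer coefficients over a common
denominator. The table is never computed: it vanishes as soon as its value at one pair of large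
integers (Kronecker substitution) vanishes, and that value is cheap for the kernel.
-/

namespace Vale.Agent.P237.Sharp.OneD5

/-- Polynomial expressions in two variables with rational coefficients. -/
inductive PExp where
  | z (n : ℤ)
  | q (n : ℤ) (d : ℕ)
  | x
  | y
  | add (a b : PExp)
  | sub (a b : PExp)
  | mul (a b : PExp)
  | pw (a : PExp) (n : ℕ)

namespace PExp

/-- The value of an expression. -/
noncomputable def val : PExp → ℝ → ℝ → ℝ
  | z n, _, _ => (n : ℝ)
  | q n d, _, _ => (n : ℝ) / (d : ℝ)
  | x, u, _ => u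
  | y, _, v => v
  | add a b, u, v => a.val u v + b.val u v
  | sub a b, u, v => a.val u v - b.val u v
  | mul a b, u, v => a.val u v * b.val u v
  | pw a n, u, v => a.val u v ^ n

end PExp

/-- Coefficientwise sum. -/
def addR : List ℤ → List ℤ → List ℤ
  | [], l => l
  | a :: k, [] => a :: k
  | a :: k, b :: l => (a + b) :: addR k l

/-- Scalar multiple. -/
def smulR (c : ℤ) : List ℤ → List ℤ
  | [] => []
  | a :: k => (c * a) :: smulR c k

/-- Product. -/
def mulR : List ℤ → List ℤ → List ℤ
  | [], _ => []
  | a :: k, l => addR (smulR a l) (0 :: mulR k l)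

/-- Sum of tables. -/
def addT : List (List ℤ) → List (List ℤ) → List (List ℤ)
  | [], l => l
  | a :: k, [] => a :: k
  | a :: k, b :: l => addR a b :: addT k l

/-- Scalar multiple of a table. -/
def smulT (c : ℤ) : List (List ℤ) → List (List ℤ)
  | [] => []
  | a :: k => smulR c a :: smulT c k

/-- A row times a table. -/
def rowT (r : List ℤ) : List (List ℤ) → List (List ℤ)
  | [] => []
  | a :: k => mulR r a :: rowT r k

/-- Product of tables. -/
def mulT : List (List ℤ) → List (List ℤ) → List (List ℤ)
  | [], _ => []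
  | a :: k, l => addT (rowT a l) ([] :: mulT k l)

/-- Power of a table. -/
def powT (p : List (List ℤ)) : ℕ → List (List ℤ)
  | 0 => [[1]]
  | n + 1 => mulT p (powT p n)

/-- Value of a row. -/
noncomputable def valR : List ℤ → ℝ → ℝ
  | [], _ => 0
  | a :: k, v => (a : ℝ) + v * valR k v

/-- Value of a table. -/
noncomputable def valT : List (List ℤ) → ℝ → ℝ → ℝ
  | [], _, _ => 0
  | a :: k, u, v => valR a v + u * valT k u v

/-- Value of a row at an integer. -/
def evR : List ℤ → ℤ → ℤ
  | [], _ => 0
  | a :: k, v => a + v * evR k v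

/-- Value of a table at integers. -/
def evT : List (List ℤ) → ℤ → ℤ → ℤ
  | [], _, _ => 0
  | a :: k, u, v => evR a v + u * evT k u v

/-- Sum of absolute values in a row. -/
def nrmR : List ℤ → ℕ
  | [] => 0
  | a :: k => a.natAbs + nrmR k

/-- Sum of absolute values in a table. -/
def nrmT : List (List ℤ) → ℕ
  | [] => 0
  | a :: k => nrmR a + nrmT k

/-- Length of the longest row, less one. -/
def degT : List (List ℤ) → ℕ
  | [] => 0
  | a :: k => max (a.length - 1) (degT k)

lemma evR_add (k l : List ℤ) (v : ℤ) : evR (addR k l) v = evR k v + evR l v := by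
  induction k generalizing l with
  | nil => simp [addR, evR]
  | cons a k ih =>
    cases l with
    | nil => simp [addR, evR]
    | cons b l => simp only [addR, evR, ih]; ring

lemma evR_smul (c : ℤ) (k : List ℤ) (v : ℤ) : evR (smulR c k) v = c * evR k v := by
  induction k with
  | nil => simp [smulR, evR]
  | cons a k ih => simp only [smulR, evR, ih]; ring

lemma evR_mul (k l : List ℤ) (v : ℤ) : evR (mulR k l) v = evR k v * evR l v := by
  induction k with
  | nil => simp [mulR, evR]
  | cons a k ih => simp only [mulR, evR_add, evR_smul, evR, ih]; ring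

lemma evT_add (k l : List (List ℤ)) (u v : ℤ) :
    evT (addT k l) u v = evT k u v + evT l u v := by
  induction k generalizing l with
  | nil => simp [addT, evT]
  | cons a k ih =>
    cases l with
    | nil => simp [addT, evT]
    | cons b l => simp only [addT, evT, ih, evR_add]; ring

lemma evT_smul (c : ℤ) (k : List (List ℤ)) (u v : ℤ) :
    evT (smulT c k) u v = c * evT k u v := by
  induction k with
  | nil => simp [smulT, evT]
  | cons a k ih => simp only [smulT, evT, ih, evR_smul]; ring

lemma evT_row (r : List ℤ) (k : List (List ℤ)) (u v : ℤ) :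
    evT (rowT r k) u v = evR r v * evT k u v := by
  induction k with
  | nil => simp [rowT, evT]
  | cons a k ih => simp only [rowT, evT, ih, evR_mul]; ring

lemma evT_mul (k l : List (List ℤ)) (u v : ℤ) :
    evT (mulT k l) u v = evT k u v * evT l u v := by
  induction k with
  | nil => simp [mulT, evT]
  | cons a k ih => simp only [mulT, evT_add, evT_row, evT, evR, ih]; ring

lemma evT_pow (p : List (List ℤ)) (n : ℕ) (u v : ℤ) : evT (powT p n) u v = evT p u v ^ n := by
  induction n with
  | zero => simp [powT, evT, evR]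
  | succ n ih => rw [powT, evT_mul, ih]; ring

lemma length_addR (k l : List ℤ) : (addR k l).length = max k.length l.length := by
  induction k generalizing l with
  | nil => simp [addR]
  | cons a k ih =>
    cases l with
    | nil => simp [addR]
    | cons b l => simp only [addR, List.length_cons, ih]; omega

lemma length_smulR (c : ℤ) (k : List ℤ) : (smulR c k).length = k.length := by
  induction k with
  | nil => rfl
  | cons a k ih => simp [smulR, ih]

lemma length_mulR (k l : List ℤ) : (mulR k l).length - 1 ≤ (k.length - 1) + (l.length - 1) := by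
  induction k with
  | nil => simp [mulR]
  | cons a k ih =>
    cases k with
    | nil => simp [mulR, length_addR, length_smulR]; omega
    | cons b k' =>
      simp only [mulR, length_addR, length_smulR, List.length_cons] at ih ⊢
      omega

lemma nrmR_add (k l : List ℤ) : nrmR (addR k l) ≤ nrmR k + nrmR l := by
  induction k generalizing l with
  | nil => simp [addR, nrmR]
  | cons a k ih =>
    cases l with
    | nil => simp [addR, nrmR]
    | cons b l =>
      have := Int.natAbs_add_le a b
      have := ih l
      simp only [addR, nrmR]; omega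

lemma nrmR_smul (c : ℤ) (k : List ℤ) : nrmR (smulR c k) = c.natAbs * nrmR k := by
  induction k with
  | nil => simp [smulR, nrmR]
  | cons a k ih => simp only [smulR, nrmR, ih, Int.natAbs_mul]; ring

lemma nrmR_mul (k l : List ℤ) : nrmR (mulR k l) ≤ nrmR k * nrmR l := by
  induction k with
  | nil => simp [mulR, nrmR]
  | cons a k ih =>
    refine le_trans (nrmR_add _ _) ?_
    simp only [nrmR_smul, nrmR, Int.natAbs_zero, zero_add, add_mul]
    omega

lemma nrmT_add (k l : List (List ℤ)) : nrmT (addT k l) ≤ nrmT k + nrmT l := by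
  induction k generalizing l with
  | nil => simp [addT, nrmT]
  | cons a k ih =>
    cases l with
    | nil => simp [addT, nrmT]
    | cons b l =>
      have := nrmR_add a b
      have := ih l
      simp only [addT, nrmT]; omega

lemma nrmT_smul (c : ℤ) (k : List (List ℤ)) : nrmT (smulT c k) = c.natAbs * nrmT k := by
  induction k with
  | nil => simp [smulT, nrmT]
  | cons a k ih => simp only [smulT, nrmT, ih, nrmR_smul]; ring

lemma nrmT_row (r : List ℤ) (k : List (List ℤ)) : nrmT (rowT r k) ≤ nrmR r * nrmT k := by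
  induction k with
  | nil => simp [rowT, nrmT]
  | cons a k ih =>
    have := nrmR_mul r a
    simp only [rowT, nrmT, mul_add]; omega

lemma nrmT_mul (k l : List (List ℤ)) : nrmT (mulT k l) ≤ nrmT k * nrmT l := by
  induction k with
  | nil => simp [mulT, nrmT]
  | cons a k ih =>
    refine le_trans (nrmT_add _ _) ?_
    have := nrmT_row a l
    simp only [nrmT, nrmR, zero_add, add_mul]; omega

lemma degT_add (k l : List (List ℤ)) : degT (addT k l) ≤ max (degT k) (degT l) := by
  induction k generalizing l with
  | nil => simp [addT, degT]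
  | cons a k ih =>
    cases l with
    | nil => simp [addT, degT]
    | cons b l =>
      have := ih l
      simp only [addT, degT, length_addR]; omega

lemma degT_smul (c : ℤ) (k : List (List ℤ)) : degT (smulT c k) = degT k := by
  induction k with
  | nil => rfl
  | cons a k ih => simp [smulT, degT, ih, length_smulR]

lemma degT_row (r : List ℤ) (k : List (List ℤ)) :
    degT (rowT r k) ≤ (r.length - 1) + degT k := by
  induction k with
  | nil => simp [rowT, degT]
  | cons a k ih =>
    have := length_mulR r a
    simp only [rowT, degT]; omega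

lemma degT_mul (k l : List (List ℤ)) : degT (mulT k l) ≤ degT k + degT l := by
  induction k with
  | nil => simp [mulT, degT]
  | cons a k ih =>
    refine le_trans (degT_add _ _) ?_
    have := degT_row a l
    simp only [degT, List.length_nil]; omega

lemma nrmT_pow (p : List (List ℤ)) (n : ℕ) : nrmT (powT p n) ≤ nrmT p ^ n := by
  induction n with
  | zero => simp [powT, nrmT, nrmR]
  | succ n ih =>
    rw [powT, pow_succ']
    exact (nrmT_mul _ _).trans (Nat.mul_le_mul le_rfl ih)

lemma degT_pow (p : List (List ℤ)) (n : ℕ) : degT (powT p n) ≤ n * degT p := by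
  induction n with
  | zero => simp [powT, degT]
  | succ n ih =>
    rw [powT, Nat.add_mul, Nat.one_mul]
    exact (degT_mul _ _).trans (by omega)

lemma evR_bound (a : List ℤ) {X : ℤ} (hX : 1 ≤ X) :
    |evR a X| ≤ nrmR a * X ^ (a.length - 1) := by
  induction a with
  | nil => simp [evR, nrmR]
  | cons a k ih =>
    have hpow : (1 : ℤ) ≤ X ^ k.length := one_le_pow₀ hX
    have hle : X * |evR k X| ≤ nrmR k * X ^ k.length := by
      cases k with
      | nil => simp [evR, nrmR]
      | cons b k' =>
        calc X * |evR (b :: k') X| ≤ X * (nrmR (b :: k') * X ^ ((b :: k').length - 1)) :=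
              mul_le_mul_of_nonneg_left ih (by linarith)
          _ = _ := by simp [pow_succ]; ring
    have hab : |evR (a :: k) X| ≤ |a| + X * |evR k X| := by
      refine (abs_add_le _ _).trans ?_
      rw [abs_mul, abs_of_nonneg (by linarith : (0 : ℤ) ≤ X)]
    have ha : |a| ≤ |a| * X ^ k.length := le_mul_of_one_le_right (abs_nonneg a) hpow
    simp only [nrmR, List.length_cons, Nat.add_sub_cancel, Nat.cast_add, Int.natCast_natAbs,
      add_mul]
    linarith

lemma row_eq_zero (a : List ℤ) {X : ℕ} (hn : nrmR a < X) (h : evR a X = 0) (v : ℝ) :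
    valR a v = 0 := by
  induction a with
  | nil => rfl
  | cons a k ih =>
    simp only [nrmR] at hn
    simp only [evR] at h
    have ha : a = 0 := Int.eq_zero_of_dvd_of_natAbs_lt_natAbs
      (⟨-evR k X, by linear_combination h⟩ : (X : ℤ) ∣ a) (by simp; omega)
    have hk : evR k (X : ℤ) = 0 := by
      rcases mul_eq_zero.1 (by linear_combination h - ha : (X : ℤ) * evR k X = 0) with h0 | h0
      · omega
      · exact h0
    simp [valR, ha, ih (by omega) hk]

lemma tab_eq_zero (p : List (List ℤ)) {X L : ℕ} (hn : nrmT p < X) (hL : degT p < L)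
    (h : evT p ((X : ℤ) ^ L) X = 0) (u v : ℝ) : valT p u v = 0 := by
  induction p with
  | nil => rfl
  | cons a k ih =>
    simp only [nrmT] at hn
    simp only [degT, max_lt_iff] at hL
    simp only [evT] at h
    have hX : (1 : ℤ) ≤ X := by omega
    have hP : (0 : ℤ) < (X : ℤ) ^ L := by positivity
    have hlt : |evR a X| < (X : ℤ) ^ L := by
      refine (evR_bound a hX).trans_lt ?_
      calc (nrmR a : ℤ) * (X : ℤ) ^ (a.length - 1) < X * (X : ℤ) ^ (a.length - 1) :=
            mul_lt_mul_of_pos_right (by omega) (by positivity)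
        _ = (X : ℤ) ^ (a.length - 1 + 1) := by ring
        _ ≤ _ := pow_le_pow_right₀ hX (by omega)
    have ha : evR a X = 0 := Int.eq_zero_of_abs_lt_dvd
      (⟨-evT k ((X : ℤ) ^ L) X, by linear_combination h⟩ : (X : ℤ) ^ L ∣ evR a X) hlt
    have hk : evT k ((X : ℤ) ^ L) X = 0 := by
      rcases mul_eq_zero.1
        (by linear_combination h - ha : (X : ℤ) ^ L * evT k ((X : ℤ) ^ L) X = 0) with h0 | h0
      · exact absurd h0 hP.ne'
      · exact h0
    simp [valT, row_eq_zero a (by omega : nrmR a < X) ha, ih (by omega) hL.2 hk]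

lemma valR_add (k l : List ℤ) (v : ℝ) : valR (addR k l) v = valR k v + valR l v := by
  induction k generalizing l with
  | nil => simp [addR, valR]
  | cons a k ih =>
    cases l with
    | nil => simp [addR, valR]
    | cons b l => simp only [addR, valR, ih]; push_cast; ring

lemma valR_smul (c : ℤ) (k : List ℤ) (v : ℝ) : valR (smulR c k) v = c * valR k v := by
  induction k with
  | nil => simp [smulR, valR]
  | cons a k ih => simp only [smulR, valR, ih]; push_cast; ring

lemma valR_mul (k l : List ℤ) (v : ℝ) : valR (mulR k l) v = valR k v * valR l v := by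
  induction k with
  | nil => simp [mulR, valR]
  | cons a k ih => simp only [mulR, valR_add, valR_smul, valR, ih]; push_cast; ring

lemma valT_add (k l : List (List ℤ)) (u v : ℝ) :
    valT (addT k l) u v = valT k u v + valT l u v := by
  induction k generalizing l with
  | nil => simp [addT, valT]
  | cons a k ih =>
    cases l with
    | nil => simp [addT, valT]
    | cons b l => simp only [addT, valT, ih, valR_add]; ring

lemma valT_smul (c : ℤ) (k : List (List ℤ)) (u v : ℝ) :
    valT (smulT c k) u v = c * valT k u v := by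
  induction k with
  | nil => simp [smulT, valT]
  | cons a k ih => simp only [smulT, valT, ih, valR_smul]; ring

lemma valT_row (r : List ℤ) (k : List (List ℤ)) (u v : ℝ) :
    valT (rowT r k) u v = valR r v * valT k u v := by
  induction k with
  | nil => simp [rowT, valT]
  | cons a k ih => simp only [rowT, valT, ih, valR_mul]; ring

lemma valT_mul (k l : List (List ℤ)) (u v : ℝ) :
    valT (mulT k l) u v = valT k u v * valT l u v := by
  induction k with
  | nil => simp [mulT, valT]
  | cons a k ih => simp only [mulT, valT_add, valT_row, valT, valR, ih]; ring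

lemma valT_pow (p : List (List ℤ)) (n : ℕ) (u v : ℝ) :
    valT (powT p n) u v = valT p u v ^ n := by
  induction n with
  | zero => simp [powT, valT, valR]
  | succ n ih => rw [powT, valT_mul, ih]; ring

namespace PExp

/-- A table and a denominator. -/
def tab : PExp → List (List ℤ) × ℕ
  | z n => ([[n]], 1)
  | q n d => ([[n]], d)
  | x => ([[], [1]], 1)
  | y => ([[0, 1]], 1)
  | add a b =>
    let g := Nat.gcd a.tab.2 b.tab.2
    (addT (smulT (b.tab.2 / g : ℕ) a.tab.1) (smulT (a.tab.2 / g : ℕ) b.tab.1),
      a.tab.2 / g * b.tab.2)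
  | sub a b =>
    let g := Nat.gcd a.tab.2 b.tab.2
    (addT (smulT (b.tab.2 / g : ℕ) a.tab.1) (smulT (-(a.tab.2 / g : ℕ)) b.tab.1),
      a.tab.2 / g * b.tab.2)
  | mul a b => (mulT a.tab.1 b.tab.1, a.tab.2 * b.tab.2)
  | pw a n => (powT a.tab.1 n, a.tab.2 ^ n)

/-- The denominators do not vanish. -/
def ok : PExp → Bool
  | q _ d => !(d == 0)
  | add a b => a.ok && b.ok
  | sub a b => a.ok && b.ok
  | mul a b => a.ok && b.ok
  | pw a _ => a.ok
  | _ => true

lemma lcm_split (a b : ℕ) :
    a / Nat.gcd a b * b = b / Nat.gcd a b * a := by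
  rw [← Nat.mul_div_right_comm (Nat.gcd_dvd_left a b), ← Nat.mul_div_right_comm (Nat.gcd_dvd_right a b),
    Nat.mul_comm]

lemma tab_spec (e : PExp) (h : e.ok = true) (u v : ℝ) :
    0 < e.tab.2 ∧ valT e.tab.1 u v = e.val u v * e.tab.2 := by
  induction e with
  | z n => simp [tab, valT, valR, val]
  | q n d =>
    have hd : d ≠ 0 := by simpa [ok] using h
    refine ⟨Nat.pos_of_ne_zero hd, ?_⟩
    have hd' : (d : ℝ) ≠ 0 := Nat.cast_ne_zero.mpr hd
    simp [tab, valT, valR, val]
    field_simp
  | x => simp [tab, valT, valR, val]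
  | y => simp [tab, valT, valR, val]
  | add a b iha ihb =>
    simp only [ok, Bool.and_eq_true] at h
    obtain ⟨hA, ea⟩ := iha h.1
    obtain ⟨hB, eb⟩ := ihb h.2
    have hdvd := Nat.gcd_dvd_left a.tab.2 b.tab.2
    have hpos : 0 < a.tab.2 / Nat.gcd a.tab.2 b.tab.2 * b.tab.2 :=
      Nat.mul_pos (Nat.div_pos (Nat.le_of_dvd hA hdvd) (Nat.gcd_pos_of_pos_left _ hA)) hB
    have hs := congrArg (Nat.cast (R := ℝ)) (lcm_split a.tab.2 b.tab.2)
    push_cast at hs
    refine ⟨hpos, ?_⟩
    simp only [tab, val, valT_add, valT_smul, ea, eb, Int.cast_natCast, Nat.cast_mul]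
    linear_combination -(a.val u v) * hs
  | sub a b iha ihb =>
    simp only [ok, Bool.and_eq_true] at h
    obtain ⟨hA, ea⟩ := iha h.1
    obtain ⟨hB, eb⟩ := ihb h.2
    have hdvd := Nat.gcd_dvd_left a.tab.2 b.tab.2
    have hpos : 0 < a.tab.2 / Nat.gcd a.tab.2 b.tab.2 * b.tab.2 :=
      Nat.mul_pos (Nat.div_pos (Nat.le_of_dvd hA hdvd) (Nat.gcd_pos_of_pos_left _ hA)) hB
    have hs := congrArg (Nat.cast (R := ℝ)) (lcm_split a.tab.2 b.tab.2)
    push_cast at hs
    refine ⟨hpos, ?_⟩
    simp only [tab, val, valT_add, valT_smul, ea, eb, Int.cast_neg, Int.cast_natCast, Nat.cast_mul]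
    linear_combination -(a.val u v) * hs
  | mul a b iha ihb =>
    simp only [ok, Bool.and_eq_true] at h
    obtain ⟨hA, ea⟩ := iha h.1
    obtain ⟨hB, eb⟩ := ihb h.2
    refine ⟨Nat.mul_pos hA hB, ?_⟩
    simp only [tab, val, valT_mul, ea, eb]
    push_cast; ring
  | pw a n iha =>
    obtain ⟨hA, ea⟩ := iha (by simpa [ok] using h)
    refine ⟨Nat.pow_pos hA, ?_⟩
    simp only [tab, val, valT_pow, ea]
    push_cast; ring

/-- The common denominator. -/
def den : PExp → ℕ
  | q _ d => d
  | add a b => a.den / Nat.gcd a.den b.den * b.den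
  | sub a b => a.den / Nat.gcd a.den b.den * b.den
  | mul a b => a.den * b.den
  | pw a n => a.den ^ n
  | _ => 1

/-- The value of the table at integers. -/
def num : PExp → ℤ → ℤ → ℤ
  | z n, _, _ => n
  | q n _, _, _ => n
  | x, U, _ => U
  | y, _, V => V
  | add a b, U, V => (b.den / Nat.gcd a.den b.den : ℕ) * a.num U V +
      (a.den / Nat.gcd a.den b.den : ℕ) * b.num U V
  | sub a b, U, V => (b.den / Nat.gcd a.den b.den : ℕ) * a.num U V -
      (a.den / Nat.gcd a.den b.den : ℕ) * b.num U V
  | mul a b, U, V => a.num U V * b.num U V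
  | pw a n, U, V => a.num U V ^ n

/-- A bound for the sum of the absolute values in the table. -/
def size : PExp → ℕ
  | z n => n.natAbs
  | q n _ => n.natAbs
  | add a b => b.den / Nat.gcd a.den b.den * a.size + a.den / Nat.gcd a.den b.den * b.size
  | sub a b => b.den / Nat.gcd a.den b.den * a.size + a.den / Nat.gcd a.den b.den * b.size
  | mul a b => a.size * b.size
  | pw a n => a.size ^ n
  | _ => 1

/-- A bound for the degree in the second variable. -/
def degY : PExp → ℕ
  | y => 1
  | add a b => max a.degY b.degY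
  | sub a b => max a.degY b.degY
  | mul a b => a.degY + b.degY
  | pw a n => n * a.degY
  | _ => 0

lemma tab_den (e : PExp) : e.tab.2 = e.den := by
  induction e <;> simp_all [tab, den]

lemma tab_num (e : PExp) (U V : ℤ) :
    evT e.tab.1 U V = e.num U V ∧ nrmT e.tab.1 ≤ e.size ∧ degT e.tab.1 ≤ e.degY := by
  induction e with
  | z n => simp [tab, num, size, degY, evT, evR, nrmT, nrmR, degT]
  | q n d => simp [tab, num, size, degY, evT, evR, nrmT, nrmR, degT]
  | x => simp [tab, num, size, degY, evT, evR, nrmT, nrmR, degT]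
  | y => simp [tab, num, size, degY, evT, evR, nrmT, nrmR, degT]
  | add a b iha ihb =>
    refine ⟨?_, ?_, ?_⟩
    · simp only [tab, num, tab_den, evT_add, evT_smul, iha.1, ihb.1]
    · simp only [tab, size, tab_den]
      refine (nrmT_add _ _).trans ?_
      simp only [nrmT_smul, Int.natAbs_natCast]
      exact add_le_add (Nat.mul_le_mul le_rfl iha.2.1) (Nat.mul_le_mul le_rfl ihb.2.1)
    · simp only [tab, degY]
      refine (degT_add _ _).trans ?_
      simp only [degT_smul]
      exact max_le_max iha.2.2 ihb.2.2
  | sub a b iha ihb =>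
    refine ⟨?_, ?_, ?_⟩
    · simp only [tab, num, tab_den, evT_add, evT_smul, iha.1, ihb.1]; ring
    · simp only [tab, size, tab_den]
      refine (nrmT_add _ _).trans ?_
      simp only [nrmT_smul, Int.natAbs_neg, Int.natAbs_natCast]
      exact add_le_add (Nat.mul_le_mul le_rfl iha.2.1) (Nat.mul_le_mul le_rfl ihb.2.1)
    · simp only [tab, degY]
      refine (degT_add _ _).trans ?_
      simp only [degT_smul]
      exact max_le_max iha.2.2 ihb.2.2
  | mul a b iha ihb =>
    exact ⟨by simp only [tab, num, evT_mul, iha.1, ihb.1],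
      (nrmT_mul _ _).trans (Nat.mul_le_mul iha.2.1 ihb.2.1),
      (degT_mul _ _).trans (add_le_add iha.2.2 ihb.2.2)⟩
  | pw a n iha =>
    exact ⟨by simp only [tab, num, evT_pow, iha.1],
      (nrmT_pow _ _).trans (Nat.pow_le_pow_left iha.2.1 n),
      (degT_pow _ _).trans (Nat.mul_le_mul le_rfl iha.2.2)⟩

/-- The check that two expressions have the same value. -/
def same (e f : PExp) : Bool :=
  let X : ℕ := f.den * e.size + e.den * f.size + 1
  let L : ℕ := max e.degY f.degY + 1
  e.ok && f.ok && ((f.den : ℤ) * e.num ((X : ℤ) ^ L) X == (e.den : ℤ) * f.num ((X : ℤ) ^ L) X)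

lemma eq_of_same {e f : PExp} (h : same e f = true) (u v : ℝ) : e.val u v = f.val u v := by
  simp only [same, Bool.and_eq_true, beq_iff_eq] at h
  obtain ⟨⟨he, hf⟩, hz⟩ := h
  generalize hX : f.den * e.size + e.den * f.size + 1 = X at hz
  generalize hL : max e.degY f.degY + 1 = L at hz
  obtain ⟨e1, e2, e3⟩ := tab_num e ((X : ℤ) ^ L) X
  obtain ⟨f1, f2, f3⟩ := tab_num f ((X : ℤ) ^ L) X
  obtain ⟨hE, ee⟩ := tab_spec e he u v
  obtain ⟨hF, ef⟩ := tab_spec f hf u v
  rw [tab_den] at hE hF ee ef
  have hn : nrmT (addT (smulT (f.den : ℤ) e.tab.1) (smulT (-(e.den : ℤ)) f.tab.1)) < X := by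
    refine lt_of_le_of_lt (nrmT_add _ _) ?_
    simp only [nrmT_smul, Int.natAbs_neg, Int.natAbs_natCast, ← hX]
    exact Nat.lt_succ_of_le (add_le_add (Nat.mul_le_mul le_rfl e2) (Nat.mul_le_mul le_rfl f2))
  have hd : degT (addT (smulT (f.den : ℤ) e.tab.1) (smulT (-(e.den : ℤ)) f.tab.1)) < L := by
    refine lt_of_le_of_lt (degT_add _ _) ?_
    simp only [degT_smul, ← hL]
    exact Nat.lt_succ_of_le (max_le_max e3 f3)
  have := tab_eq_zero _ hn hd
    (by rw [evT_add, evT_smul, evT_smul, e1, f1]; linear_combination hz) u v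
  rw [valT_add, valT_smul, valT_smul, ee, ef] at this
  push_cast at this
  have hE' : (e.den : ℝ) * f.den ≠ 0 := by positivity
  have : (e.val u v - f.val u v) * ((e.den : ℝ) * f.den) = 0 := by linear_combination this
  rcases mul_eq_zero.1 this with h0 | h0
  · linarith
  · exact absurd h0 hE'

/-- `bez` as an expression. -/
def bezE : List ℕ → PExp → PExp → PExp
  | [], _, _ => z 0
  | a :: l, s, w => add (mul (z (a : ℤ)) (pw w l.length)) (mul s (bezE l s w))

/-- `bez2` as an expression. -/
def bez2E : List (List ℕ) → PExp → PExp → PExp → PExp → PExp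
  | [], _, _, _, _ => z 0
  | r :: l, s, t, m, w => add (mul (bezE r m w) (pw t l.length)) (mul s (bez2E l s t m w))

lemma val_bezE (l : List ℕ) (s w : PExp) (u v : ℝ) :
    (bezE l s w).val u v = bez l (s.val u v) (w.val u v) := by
  induction l with
  | nil => simp [bezE, val, bez]
  | cons a l ih => simp [bezE, val, bez, ih]

lemma val_bez2E (l : List (List ℕ)) (s t m w : PExp) (u v : ℝ) :
    (bez2E l s t m w).val u v = bez2 l (s.val u v) (t.val u v) (m.val u v) (w.val u v) := by
  induction l with
  | nil => simp [bez2E, val, bez2]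
  | cons r l ih => simp [bez2E, val, bez2, ih, val_bezE]

/-- A scaled expression that equals a Bernstein form on a box is nonnegative there. -/
lemma nonneg_of_same {e : PExp} {K : ℕ} {l : List (List ℕ)} {L₁ a₁ b₁ L₂ a₂ b₂ : ℕ}
    (hK : 0 < K)
    (hsame : same (mul (z (K : ℤ)) e)
      (bez2E l (sub (mul (z (L₁ : ℤ)) x) (z (a₁ : ℤ))) (sub (z (b₁ : ℤ)) (mul (z (L₁ : ℤ)) x))
        (sub (mul (z (L₂ : ℤ)) y) (z (a₂ : ℤ))) (sub (z (b₂ : ℤ)) (mul (z (L₂ : ℤ)) y))) = true)
    {u v : ℝ} (h1 : (a₁ : ℝ) ≤ L₁ * u) (h2 : (L₁ : ℝ) * u ≤ b₁) (h3 : (a₂ : ℝ) ≤ L₂ * v)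
    (h4 : (L₂ : ℝ) * v ≤ b₂) : 0 ≤ e.val u v := by
  have heq := eq_of_same hsame u v
  rw [val_bez2E] at heq
  have hKR : (0 : ℝ) < K := Nat.cast_pos.mpr hK
  refine nonneg_of_mul_nonneg_right (a := (K : ℝ)) ?_ hKR
  have hn : 0 ≤ (mul (z (K : ℤ)) e).val u v := by
    rw [heq]
    refine bez2_nonneg l ?_ ?_ ?_ ?_ <;> simp [val] <;> linarith
  simpa [val] using hn

end PExp

end Vale.Agent.P237.Sharp.OneD5
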