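import Mathlib
import Vale.Agent.P237.Sharp.OneD3.Phi
import Vale.Agent.P237.Sharp.OneD4.Phi
import Vale.Agent.P237.Sharp.OneD5.Spec

/-!
# P237, sharp route in `ℝ⁵`: the gap functional

`gap f = P^(4/3) - ∫ W(t, f) - (P - 3π/16)/3000` with `P = ∫ f³` and
`W(t, y) = cst5 y⁴ + (111/250) momW t y`; it vanishes at the quarter circle.
-/

open MeasureTheory Set Real

namespace Vale.Agent.P237.Sharp.OneD5

open Vale.Agent.P237.Sharp.OneD3 (circ cap capSup Good circ_nonneg)
open Vale.Agent.P237.Sharp.OneD4 (Adm int_pow integral_circ_pow good_cap good_capSup)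

/-- The kernel of `momW`, the derivative in the radius. -/
noncomputable def momK (t x : ℝ) : ℝ := x ^ 3 * hw5 (t ^ 2 + x ^ 2) * (4 * t ^ 2 - x ^ 2)

/-- The integrand of the nonlinear part. -/
noncomputable def wfun (t y : ℝ) : ℝ := cst5 * y ^ 4 + 111 / 250 * momW t y

/-- The slack kept for the equality case. -/
noncomputable def kap : ℝ := 1 / 3000

/-- The cube integral of a profile. -/
noncomputable def J (f : ℝ → ℝ) : ℝ := ∫ t in (0:ℝ)..1, f t ^ 3

/-- The nonlinear part. -/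
noncomputable def Q (f : ℝ → ℝ) : ℝ := ∫ t in (0:ℝ)..1, wfun t (f t)

/-- The gap functional. -/
noncomputable def gap (f : ℝ → ℝ) : ℝ := J f ^ (4 / 3 : ℝ) - Q f - kap * (J f - 3 * π / 16)

@[fun_prop]
lemma continuous_momK : Continuous fun p : ℝ × ℝ => momK p.1 p.2 := by unfold momK; fun_prop

lemma hasDerivAt_momW (t y : ℝ) : HasDerivAt (momW t) (momK t y) y := by
  have hc : Continuous fun x => momK t x := by unfold momK; fun_prop
  exact intervalIntegral.integral_hasDerivAt_right (hc.intervalIntegrable 0 y)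
    (hc.stronglyMeasurableAtFilter _ _) hc.continuousAt

lemma continuous_momW : Continuous fun p : ℝ × ℝ => momW p.1 p.2 :=
  intervalIntegral.continuous_parametric_intervalIntegral_of_continuous
    (f := fun (p : ℝ × ℝ) x => momK p.1 x) (μ := volume) (a₀ := (0:ℝ))
    (continuous_momK.comp (continuous_fst.fst.prodMk continuous_snd)) continuous_snd

@[fun_prop]
lemma continuous_wfun : Continuous fun p : ℝ × ℝ => wfun p.1 p.2 := by
  unfold wfun
  exact (continuous_snd.pow 4).const_mul cst5 |>.add (continuous_momW.const_mul _)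

@[fun_prop]
lemma measurable_wfun {g : ℝ → ℝ} (hg : Measurable g) : Measurable fun t => wfun t (g t) :=
  (continuous_wfun.measurable.comp (measurable_id'.prodMk hg) :)

lemma hasDerivAt_wfun (t y : ℝ) :
    HasDerivAt (wfun t) (4 * cst5 * y ^ 3 + 111 / 250 * momK t y) y := by
  refine (((hasDerivAt_pow 4 y).const_mul cst5).add
    ((hasDerivAt_momW t y).const_mul (111 / 250))).congr_deriv ?_
  norm_num
  ring

/-- A bound for the kernel. -/
lemma abs_momK_le {t x M : ℝ} (ht : t ∈ Icc (0:ℝ) 1) (hx : |x| ≤ M) :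
    |momK t x| ≤ M ^ 3 * (4 + M ^ 2) := by
  obtain ⟨h0, h1⟩ := hw5_mem (t ^ 2 + x ^ 2)
  have hM : 0 ≤ M := (abs_nonneg x).trans hx
  rw [momK, abs_mul, abs_mul, abs_pow, abs_of_nonneg (by linarith : 0 ≤ hw5 (t ^ 2 + x ^ 2))]
  have ha : |x| ^ 3 * hw5 (t ^ 2 + x ^ 2) ≤ M ^ 3 := by
    calc |x| ^ 3 * hw5 (t ^ 2 + x ^ 2) ≤ M ^ 3 * 1 :=
          mul_le_mul (pow_le_pow_left₀ (abs_nonneg _) hx 3) h1 (by linarith) (by positivity)
      _ = M ^ 3 := mul_one _
  have hb : |4 * t ^ 2 - x ^ 2| ≤ 4 + M ^ 2 := by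
    have : x ^ 2 ≤ M ^ 2 := by rw [← sq_abs x]; exact pow_le_pow_left₀ (abs_nonneg _) hx 2
    have h2 : t ^ 2 ≤ 1 := pow_le_one₀ ht.1 ht.2
    have h3 := sq_nonneg t
    have h4 := sq_nonneg x
    rw [abs_le]; constructor <;> linarith
  exact mul_le_mul ha hb (abs_nonneg _) (by positivity)

lemma abs_momW_le {t y M : ℝ} (ht : t ∈ Icc (0:ℝ) 1) (hy : |y| ≤ M) :
    |momW t y| ≤ M ^ 4 * (4 + M ^ 2) := by
  have hM : 0 ≤ M := (abs_nonneg y).trans hy
  have h := intervalIntegral.norm_integral_le_of_norm_le_const (a := (0:ℝ)) (b := y)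
    (f := fun x => momK t x) (C := M ^ 3 * (4 + M ^ 2)) fun x hx => by
      refine abs_momK_le ht ?_
      have := hx
      rw [uIoc, mem_Ioc] at this
      rw [abs_le] at hy ⊢
      rcases le_total 0 y with h | h
      · simp only [min_eq_left h, max_eq_right h] at this; constructor <;> linarith
      · simp only [min_eq_right h, max_eq_left h] at this; constructor <;> linarith
  refine (le_of_eq_of_le (Real.norm_eq_abs _).symm h).trans ?_
  rw [sub_zero]
  calc M ^ 3 * (4 + M ^ 2) * |y| ≤ M ^ 3 * (4 + M ^ 2) * M := by gcongr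
    _ = _ := by ring

lemma int_wfun {f : ℝ → ℝ} (hf : Good f) :
    IntervalIntegrable (fun t => wfun t (f t)) volume 0 1 := by
  obtain ⟨hm, M, hM⟩ := hf
  refine OneD3.intervalIntegrable_of_bound (measurable_wfun hm)
    (M := |cst5| * M ^ 4 + 111 / 250 * (M ^ 4 * (4 + M ^ 2))) fun t ht => ?_
  rw [wfun]
  refine (abs_add_le _ _).trans (add_le_add ?_ ?_)
  · rw [abs_mul, abs_pow]
    exact mul_le_mul_of_nonneg_left (pow_le_pow_left₀ (abs_nonneg _) (hM t ht) 4) (abs_nonneg _)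
  · rw [abs_mul, abs_of_nonneg (by norm_num : (0:ℝ) ≤ 111 / 250)]
    exact mul_le_mul_of_nonneg_left (abs_momW_le ht (hM t ht)) (by norm_num)

lemma J_congr {f g : ℝ → ℝ} (h : ∀ t ∈ Icc (0:ℝ) 1, f t = g t) : J f = J g :=
  intervalIntegral.integral_congr fun t ht => by
    simp only [h t (by rwa [uIcc_of_le zero_le_one] at ht)]

lemma Q_congr {f g : ℝ → ℝ} (h : ∀ t ∈ Icc (0:ℝ) 1, f t = g t) : Q f = Q g :=
  intervalIntegral.integral_congr fun t ht => by
    simp only [h t (by rwa [uIcc_of_le zero_le_one] at ht)]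

lemma gap_congr {f g : ℝ → ℝ} (h : ∀ t ∈ Icc (0:ℝ) 1, f t = g t) : gap f = gap g := by
  rw [gap, gap, J_congr h, Q_congr h]

lemma J_nonneg {f : ℝ → ℝ} (h0 : ∀ t ∈ Icc (0:ℝ) 1, 0 ≤ f t) : 0 ≤ J f :=
  intervalIntegral.integral_nonneg zero_le_one fun t ht => pow_nonneg (h0 t ht) 3

lemma J_mono {f g : ℝ → ℝ} (hf : Good f) (hg : Good g) (h0 : ∀ t ∈ Icc (0:ℝ) 1, 0 ≤ f t)
    (h : ∀ t ∈ Icc (0:ℝ) 1, f t ≤ g t) : J f ≤ J g :=
  intervalIntegral.integral_mono_on zero_le_one (int_pow hf 3) (int_pow hg 3) fun t ht =>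
    pow_le_pow_left₀ (h0 t ht) (h t ht) 3

lemma J_circ : J circ = 3 * π / 16 := OneD4.integral_circ_cube

lemma momW_circ {t : ℝ} (ht : t ∈ Icc (0:ℝ) 1) :
    momW t (circ t) = t ^ 2 * circ t ^ 4 - circ t ^ 6 / 6 := by
  have hu := circ_nonneg t
  have hd : ∀ x, HasDerivAt (fun x => t ^ 2 * x ^ 4 - x ^ 6 / 6)
      (x ^ 3 * (4 * t ^ 2 - x ^ 2)) x := by
    intro x
    refine (((hasDerivAt_pow 4 x).const_mul (t ^ 2)).sub
      ((hasDerivAt_pow 6 x).div_const 6)).congr_deriv ?_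
    norm_num
    ring
  rw [momW, intervalIntegral.integral_congr (g := fun x => x ^ 3 * (4 * t ^ 2 - x ^ 2)),
    intervalIntegral.integral_eq_sub_of_hasDerivAt (fun x _ => hd x)
      (Continuous.intervalIntegrable (by fun_prop) _ _)]
  · simp
  intro x hx
  rw [uIcc_of_le hu] at hx
  have hs : circ t ^ 2 = 1 - t ^ 2 := Real.sq_sqrt (by nlinarith [ht.1, ht.2])
  have hx2 : t ^ 2 + x ^ 2 ≤ 1 := by nlinarith [pow_le_pow_left₀ hx.1 hx.2 2]
  show x ^ 3 * hw5 (t ^ 2 + x ^ 2) * (4 * t ^ 2 - x ^ 2) = _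
  rw [hw5, max_eq_right (by linarith), min_eq_left zero_le_one, mul_zero, sub_zero, mul_one]

lemma integral_circ_four : (∫ t in (0:ℝ)..1, circ t ^ 4) = 8 / 15 := by
  have hd : ∀ x, HasDerivAt (fun x : ℝ => x - 2 / 3 * x ^ 3 + x ^ 5 / 5)
      (1 - 2 * x ^ 2 + x ^ 4) x := by
    intro x
    refine (((hasDerivAt_id' x).sub ((hasDerivAt_pow 3 x).const_mul (2 / 3))).add
      ((hasDerivAt_pow 5 x).div_const 5)).congr_deriv ?_
    norm_num
    ring
  rw [intervalIntegral.integral_congr (g := fun t => 1 - 2 * t ^ 2 + t ^ 4),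
    intervalIntegral.integral_eq_sub_of_hasDerivAt (fun x _ => hd x)
      (Continuous.intervalIntegrable (by fun_prop) _ _)]
  · norm_num
  intro t ht
  rw [uIcc_of_le zero_le_one] at ht
  show circ t ^ 4 = _
  rw [show circ t ^ 4 = (circ t ^ 2) ^ 2 by ring,
    show circ t ^ 2 = 1 - t ^ 2 from Real.sq_sqrt (by nlinarith [ht.1, ht.2])]
  ring

lemma gap_circ : gap circ = 0 := by
  have hc : Continuous circ := by unfold circ; fun_prop
  have hi : ∀ g : ℝ → ℝ, Continuous g → IntervalIntegrable g volume 0 1 := fun g hg =>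
    hg.intervalIntegrable _ _
  have h4 := integral_circ_four
  have h6 := integral_circ_pow 4
  push_cast at h6
  have hm : (∫ t in (0:ℝ)..1, momW t (circ t)) = 0 := by
    rw [intervalIntegral.integral_congr (g := fun t => t ^ 2 * circ t ^ 4 - circ t ^ 6 / 6)
      (fun t ht => momW_circ (by rwa [uIcc_of_le zero_le_one] at ht)),
      intervalIntegral.integral_sub (f := fun t => t ^ 2 * circ t ^ 4)
        (g := fun t => circ t ^ 6 / 6) (hi _ (((continuous_pow 2).mul (hc.pow 4))))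
        (hi _ ((hc.pow 6).div_const 6)),
      intervalIntegral.integral_div]
    linarith
  have hQ : Q circ = (3 * π / 16) ^ (4 / 3 : ℝ) := by
    have hmc : Continuous fun t => momW t (circ t) :=
      Continuous.comp' (g := fun p : ℝ × ℝ => momW p.1 p.2) (f := fun t => (t, circ t))
        continuous_momW (continuous_id'.prodMk hc)
    unfold Q wfun
    rw [intervalIntegral.integral_add (f := fun t => cst5 * circ t ^ 4)
        (g := fun t => 111 / 250 * momW t (circ t)) (hi _ ((hc.pow 4).const_mul _))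
        (hi _ (hmc.const_mul _)),
      intervalIntegral.integral_const_mul, intervalIntegral.integral_const_mul, h4, hm, cst5]
    ring
  rw [gap, J_circ, hQ]
  ring

end Vale.Agent.P237.Sharp.OneD5
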