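import Mathlib
import Vale.Agent.P237.Sharp.OneD3.Deriv
import Vale.Agent.P237.Sharp.OneD5.Phi
import Vale.Agent.P237.Sharp.OneD5.Anti

/-!
# P237, sharp route in `ℝ⁵`: derivatives of the integrals along a cap
-/

open MeasureTheory Set Real Filter Topology
open scoped Interval

namespace Vale.Agent.P237.Sharp.OneD5

open Vale.Agent.P237.Sharp.OneD3 (cc ss circ tang cap capL capR circ_nonneg circ_le_cap capR_mono
  capR_le capR_of_le measurable_cap cos_pos_of abs_cap_sub_le continuousAt_tang hasDerivAt_tang)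
open Vale.Agent.P237.Sharp.OneD4 (int_pow)

section
variable {σ b tc : ℝ}

/-- The derivatives of `∫ cap³` and `∫ W(t, cap)` with respect to the right end. -/
theorem hasDerivAt_J_Q_cap (hσ : σ < π / 2) (hb0 : 0 ≤ b) (hb : b < π / 2) (htc0 : 0 ≤ tc)
    (htc : tc ≤ sin b) (hin : ∀ t ∈ Ioo tc (sin b), tang b t < capL σ t)
    (hout : ∀ t ∈ Ioo 0 tc, capL σ t < tang b t) :
    HasDerivAt (fun x => J (cap σ x))
      (∫ t in tc..sin b, 3 * tang b t ^ 2 * ((sin b - t) / cos b ^ 2)) b ∧
    HasDerivAt (fun x => Q (cap σ x))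
      (∫ t in tc..sin b, (4 * cst5 * tang b t ^ 3 + 111 / 250 * momK t (tang b t)) *
        ((sin b - t) / cos b ^ 2)) b := by
  set q := sin b with hq
  set B := (b + π / 2) / 2 with hB
  have hbB : b < B := by rw [hB]; linarith
  have hBp : B < π / 2 := by rw [hB]; linarith
  have hq1 : q ≤ 1 := sin_le_one b
  set d : ℝ → ℝ := (Ioc tc q).indicator fun t => (q - t) / cos b ^ 2 with hd
  set M := (cos B)⁻¹ with hM
  have hbd : ∀ t ∈ Icc (0:ℝ) 1, ∀ x ≤ B, |cap σ x t| ≤ M := fun t ht x hx => by
    rw [abs_of_nonneg ((circ_nonneg t).trans (circ_le_cap ht.1 ht.2 hσ (hx.trans_lt hBp)))]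
    exact ((min_le_right _ _).trans (capR_mono ht.1 ht.2 hBp hx)).trans
      (capR_le ht.1 ht.2 (hb0.trans hbB.le) hBp)
  have hmem : ∀ t ∈ Ι (0:ℝ) 1, t ∈ Icc (0:ℝ) 1 := fun t ht => by
    rw [uIoc_of_le zero_le_one] at ht; exact Ioc_subset_Icc_self ht
  -- the pointwise derivative
  have hdiff : ∀ᵐ t, t ∈ Ι (0:ℝ) 1 → HasDerivAt (fun x => cap σ x t) (d t) b := by
    have hnull : ∀ᵐ t : ℝ, t ≠ tc ∧ t ≠ q :=
      (Measure.ae_ne volume tc).and (Measure.ae_ne volume q)
    filter_upwards [hnull] with t htn htI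
    have ht := hmem t htI
    rw [uIoc_of_le zero_le_one] at htI
    rcases lt_or_gt_of_ne htn.2 with htq | htq
    · have harc : arcsin t < b := by
        have := arcsin_lt_arcsin (by linarith [ht.1]) htq hq1
        rwa [hq, arcsin_sin (by linarith [Real.pi_pos]) hb.le] at this
      have hev : ∀ᶠ x in 𝓝 b, arcsin t < x := eventually_gt_nhds harc
      rcases lt_or_gt_of_ne htn.1 with h | h
      · have hlt := hout t ⟨htI.1, h⟩
        have hev2 : ∀ᶠ x in 𝓝 b, capL σ t < tang x t :=
          (continuousAt_tang (cos_pos_of hb0 hb).ne').eventually_const_lt hlt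
        rw [hd, indicator_of_notMem fun hc => absurd hc.1 h.not_gt]
        refine (hasDerivAt_const b (capL σ t)).congr_of_eventuallyEq ?_
        filter_upwards [hev, hev2] with x hx hx2
        rw [cap, capR, max_eq_left hx.le, min_eq_left hx2.le]
      · have hlt := hin t ⟨h, htq⟩
        have hev2 : ∀ᶠ x in 𝓝 b, tang x t < capL σ t :=
          (continuousAt_tang (cos_pos_of hb0 hb).ne').eventually_lt_const hlt
        rw [hd, indicator_of_mem (show t ∈ Ioc tc q from ⟨h, htq.le⟩)]
        refine (hasDerivAt_tang (t := t) (cos_pos_of hb0 hb).ne').congr_of_eventuallyEq ?_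
        filter_upwards [hev, hev2] with x hx hx2
        rw [cap, capR, max_eq_left hx.le, min_eq_right hx2.le]
    · have harc : b < arcsin t := by
        have := arcsin_lt_arcsin (neg_one_le_sin b) htq ht.2
        rwa [arcsin_sin (by linarith [Real.pi_pos]) hb.le] at this
      rw [hd, indicator_of_notMem fun hc => absurd hc.2 htq.not_ge]
      refine (hasDerivAt_const b (min (capL σ t) (circ t))).congr_of_eventuallyEq ?_
      filter_upwards [eventually_lt_nhds harc] with x hx
      rw [cap, capR_of_le ht.1 ht.2 hx.le]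
  have hdm : Measurable d := (by fun_prop : Measurable fun t => (q - t) / cos b ^ 2).indicator
    measurableSet_Ioc
  have hcB := cos_pos_of (hb0.trans hbB.le) hBp
  have hs : Iio B ∈ 𝓝 b := Iio_mem_nhds hbB
  have hC : 0 ≤ 2 / cos B ^ 2 := by positivity
  have hgood : OneD3.Good (cap σ b) := ⟨measurable_cap σ b, _, fun t ht => hbd t ht b hbB.le⟩
  have hpow : ∀ n : ℕ, ∀ t ∈ Icc (0:ℝ) 1, ∀ u < B, ∀ v < B,
      |cap σ u t ^ n - cap σ v t ^ n| ≤ n * M ^ (n - 1) * (2 / cos B ^ 2) * |u - v| := by
    intro n t ht u hu v hv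
    refine (abs_pow_sub_pow_le _ _ n).trans ?_
    have h1 := abs_cap_sub_le (σ := σ) hBp ht.1 ht.2 hu.le hv.le
    have h2 : max |cap σ u t| |cap σ v t| ^ (n - 1) ≤ M ^ (n - 1) :=
      pow_le_pow_left₀ (le_max_of_le_left (abs_nonneg _))
        (max_le (hbd t ht u hu.le) (hbd t ht v hv.le)) _
    calc |cap σ u t - cap σ v t| * n * max |cap σ u t| |cap σ v t| ^ (n - 1)
        ≤ (2 / cos B ^ 2 * |u - v|) * n * M ^ (n - 1) := by gcongr
      _ = _ := by ring
  have hint : ∀ g : ℝ → ℝ → ℝ, (∫ t in (0:ℝ)..1, g t (cap σ b t) * d t) =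
      ∫ t in tc..q, g t (tang b t) * ((q - t) / cos b ^ 2) := by
    intro g
    rw [intervalIntegral.integral_of_le htc,
      ← (show Ioc (0:ℝ) 1 ∩ Ioc tc q = Ioc tc q from inter_eq_right.2 (Ioc_subset_Ioc htc0 hq1)),
      ← setIntegral_indicator measurableSet_Ioc, ← intervalIntegral.integral_of_le zero_le_one]
    refine intervalIntegral.integral_congr_ae ?_
    have hne : ∀ᵐ t : ℝ, t ≠ q := Measure.ae_ne volume q
    filter_upwards [hne] with t htne htI
    by_cases hm : t ∈ Ioc tc q
    · rw [hd, indicator_of_mem hm, indicator_of_mem hm]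
      have htq : t < q := lt_of_le_of_ne hm.2 htne
      have harc : arcsin t ≤ b := by
        have := arcsin_le_arcsin htq.le
        rwa [hq, arcsin_sin (by linarith [Real.pi_pos]) hb.le] at this
      rw [cap, capR, max_eq_left harc, min_eq_right (hin t ⟨hm.1, htq⟩).le]
    · rw [hd, indicator_of_notMem hm, indicator_of_notMem hm, mul_zero]
  constructor
  · have h := intervalIntegral.hasDerivAt_integral_of_dominated_loc_of_lip (μ := volume)
      (F := fun x t => cap σ x t ^ 3) (F' := fun t => 3 * cap σ b t ^ 2 * d t)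
      (bound := fun _ => 3 * M ^ 2 * (2 / cos B ^ 2)) (x₀ := b) (a := (0:ℝ)) (b := 1) hs
      (Eventually.of_forall fun x => ((measurable_cap σ x).pow_const 3).aestronglyMeasurable)
      (int_pow hgood 3)
      (by fun_prop : Measurable fun t => 3 * cap σ b t ^ 2 * d t).aestronglyMeasurable
      (ae_of_all _ fun t ht => LipschitzOnWith.of_dist_le_mul fun u hu v hv => by
        rw [Real.coe_nnabs, Real.dist_eq, Real.dist_eq,
          abs_of_nonneg (by positivity : 0 ≤ 3 * M ^ 2 * (2 / cos B ^ 2))]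
        simpa using hpow 3 t (hmem t ht) u hu v hv)
      intervalIntegrable_const
      (hdiff.mono fun t ht htI => ((ht htI).pow 3).congr_deriv (by norm_num))
    exact h.2.congr_deriv (hint fun _ y => 3 * y ^ 2)
  · have hM0 : 0 ≤ M := by rw [hM]; exact (inv_pos.2 hcB).le
    set L1 := 4 * |cst5| * M ^ 3 + 111 / 250 * (M ^ 3 * (4 + M ^ 2)) with hL1
    have hL1' : 0 ≤ L1 := by rw [hL1]; positivity
    have hL : 0 ≤ L1 * (2 / cos B ^ 2) := mul_nonneg hL1' hC
    have hm : Measurable fun t =>
        (4 * cst5 * cap σ b t ^ 3 + 111 / 250 * momK t (cap σ b t)) * d t := by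
      have h1 : Measurable fun t => momK t (cap σ b t) :=
        (continuous_momK.measurable.comp (measurable_id'.prodMk (measurable_cap σ b)) :)
      fun_prop
    have h := intervalIntegral.hasDerivAt_integral_of_dominated_loc_of_lip (μ := volume)
      (F := fun x t => wfun t (cap σ x t))
      (F' := fun t => (4 * cst5 * cap σ b t ^ 3 + 111 / 250 * momK t (cap σ b t)) * d t)
      (bound := fun _ => L1 * (2 / cos B ^ 2))
      (x₀ := b) (a := (0:ℝ)) (b := 1) hs
      (Eventually.of_forall fun x => (measurable_wfun (measurable_cap σ x)).aestronglyMeasurable)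
      (int_wfun hgood) hm.aestronglyMeasurable
      (ae_of_all _ fun t ht => LipschitzOnWith.of_dist_le_mul fun u hu v hv => by
        have ht' := hmem t ht
        rw [Real.coe_nnabs, Real.dist_eq, Real.dist_eq, abs_of_nonneg hL]
        have hmv := (convex_Icc (-M) M).norm_image_sub_le_of_norm_hasDerivWithin_le
          (f := wfun t) (f' := fun y => 4 * cst5 * y ^ 3 + 111 / 250 * momK t y) (C := L1)
          (fun y _ => (hasDerivAt_wfun t y).hasDerivWithinAt)
          (fun y hy => by
            have hy' : |y| ≤ M := abs_le.2 hy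
            rw [Real.norm_eq_abs, hL1]
            refine (abs_add_le _ _).trans (add_le_add ?_ ?_)
            · rw [abs_mul, abs_mul, abs_pow, abs_of_nonneg (by norm_num : (0:ℝ) ≤ 4)]
              exact mul_le_mul_of_nonneg_left (pow_le_pow_left₀ (abs_nonneg _) hy' 3)
                (by positivity)
            · rw [abs_mul, abs_of_nonneg (by norm_num : (0:ℝ) ≤ 111 / 250)]
              exact mul_le_mul_of_nonneg_left (abs_momK_le ht' hy') (by norm_num))
          (abs_le.1 (hbd t ht' v hv.le)) (abs_le.1 (hbd t ht' u hu.le))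
        rw [Real.norm_eq_abs, Real.norm_eq_abs] at hmv
        refine hmv.trans ?_
        calc L1 * |cap σ u t - cap σ v t| ≤ L1 * (2 / cos B ^ 2 * |u - v|) :=
              mul_le_mul_of_nonneg_left (abs_cap_sub_le hBp ht'.1 ht'.2 hu.le hv.le) hL1'
          _ = _ := by ring)
      intervalIntegrable_const
      (hdiff.mono fun t ht htI =>
        HasDerivAt.comp (h₂ := wfun t) (h := fun x => cap σ x t) b (hasDerivAt_wfun t (cap σ b t)) (ht htI))
    exact h.2.congr_deriv (hint fun t y => 4 * cst5 * y ^ 3 + 111 / 250 * momK t y)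

/-- The derivative of `∫ cap³` for a segment of length `r`. -/
lemma integral_seg_J {r : ℝ} (hb : cos b ≠ 0) :
    (∫ t in (sin b - r * cos b)..sin b, 3 * tang b t ^ 2 * ((sin b - t) / cos b ^ 2)) =
      3 * r ^ 2 * seg (cos b) (sin b) r := by
  set q := sin b
  set c := cos b
  have hqc : q ^ 2 + c ^ 2 = 1 := sin_sq_add_cos_sq b
  set H : ℝ → ℝ := fun x => 3 / 2 * c ^ 2 * x ^ 2 + 2 * c * q * x ^ 3 + 3 / 4 * q ^ 2 * x ^ 4 with hH
  have hHd : ∀ x, HasDerivAt H (3 * x * (c + q * x) ^ 2) x := by
    intro x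
    refine ((((hasDerivAt_pow 2 x).const_mul (3 / 2 * c ^ 2)).fun_add
      ((hasDerivAt_pow 3 x).const_mul (2 * c * q))).fun_add
      ((hasDerivAt_pow 4 x).const_mul (3 / 4 * q ^ 2))).congr_deriv ?_
    norm_num
    ring
  have hG : ∀ t, HasDerivAt (fun t => -H ((q - t) / c))
      (3 * tang b t ^ 2 * ((q - t) / c ^ 2)) t := by
    intro t
    refine (((hHd ((q - t) / c)).comp t (((hasDerivAt_id t).const_sub q).div_const c)).neg
      ).congr_deriv ?_
    rw [show tang b t = (1 - t * q) / c from rfl]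
    have e2 : c + q * ((q - t) / c) = (1 - t * q) / c := by
      rw [eq_div_iff hb, add_mul, mul_assoc, div_mul_cancel₀ _ hb]; linear_combination hqc
    rw [e2]
    field_simp
  rw [intervalIntegral.integral_eq_sub_of_hasDerivAt (fun t _ => hG t)
    ((by unfold tang; fun_prop : Continuous fun t =>
      3 * tang b t ^ 2 * ((q - t) / c ^ 2)).intervalIntegrable _ _)]
  rw [sub_self, zero_div, show (q - (q - r * c)) / c = r by field_simp; ring]
  simp only [hH, seg]
  ring

/-- The loss density along a segment, as a function of the distance from the tangency point. -/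
noncomputable def lossK (c q x : ℝ) : ℝ :=
  x * (4 * cst5 * (c + q * x) ^ 3 + 111 / 250 * momK (q - c * x) (c + q * x))

lemma continuous_lossK (c q : ℝ) : Continuous (lossK c q) := by
  have : Continuous fun x => momK (q - c * x) (c + q * x) := by unfold momK; fun_prop
  unfold lossK
  fun_prop

/-- The derivative of `∫ W(t, cap)` for a segment of length `r`. -/
lemma integral_seg_Q {r : ℝ} (hb : cos b ≠ 0) :
    (∫ t in (sin b - r * cos b)..sin b,
        (4 * cst5 * tang b t ^ 3 + 111 / 250 * momK t (tang b t)) *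
          ((sin b - t) / cos b ^ 2)) = ∫ x in (0:ℝ)..r, lossK (cos b) (sin b) x := by
  set q := sin b
  set c := cos b
  have hqc : q ^ 2 + c ^ 2 = 1 := sin_sq_add_cos_sq b
  have hcont := continuous_lossK c q
  set H : ℝ → ℝ := fun x => ∫ u in (0:ℝ)..x, lossK c q u with hH
  have hHd : ∀ x, HasDerivAt H (lossK c q x) x := fun x =>
    intervalIntegral.integral_hasDerivAt_right (hcont.intervalIntegrable _ _)
      (hcont.stronglyMeasurableAtFilter _ _) hcont.continuousAt
  have hG : ∀ t, HasDerivAt (fun t => -H ((q - t) / c))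
      ((4 * cst5 * tang b t ^ 3 + 111 / 250 * momK t (tang b t)) * ((q - t) / c ^ 2)) t := by
    intro t
    refine (((hHd ((q - t) / c)).comp t (((hasDerivAt_id t).const_sub q).div_const c)).neg
      ).congr_deriv ?_
    rw [show tang b t = (1 - t * q) / c from rfl, lossK]
    have e1 : q - c * ((q - t) / c) = t := by field_simp; ring
    have e2 : c + q * ((q - t) / c) = (1 - t * q) / c := by
      rw [eq_div_iff hb, add_mul, mul_assoc, div_mul_cancel₀ _ hb]; linear_combination hqc
    rw [e1, e2]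
    field_simp
  have hcm : Continuous fun t : ℝ =>
      (4 * cst5 * tang b t ^ 3 + 111 / 250 * momK t (tang b t)) * ((q - t) / c ^ 2) := by
    unfold tang momK; fun_prop
  rw [intervalIntegral.integral_eq_sub_of_hasDerivAt (fun t _ => hG t)
    (hcm.intervalIntegrable _ _)]
  rw [sub_self, zero_div, show (q - (q - r * c)) / c = r by field_simp; ring]
  simp [hH]

end

lemma momK_seg {c q : ℝ} (h : c ^ 2 + q ^ 2 = 1) (x : ℝ) :
    momK (q - c * x) (c + q * x) =
      (c + q * x) ^ 3 * (1 - 1 / 5 * min (x ^ 2) 1) * (4 * (q - c * x) ^ 2 - (c + q * x) ^ 2) := by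
  have e : (q - c * x) ^ 2 + (c + q * x) ^ 2 = 1 + x ^ 2 := by
    linear_combination (1 + x ^ 2) * h
  rw [momK, e, hw5, add_sub_cancel_left, max_eq_left (sq_nonneg x)]

/-- The loss along a segment of length at most one. -/
lemma loss_short {c q r : ℝ} (h : c ^ 2 + q ^ 2 = 1) (hr : 0 ≤ r) (hr1 : r ≤ 1) :
    (∫ x in (0:ℝ)..r, lossK c q x) = r ^ 2 * (4 * cst5 * cube c q r + momA c q r) := by
  rw [← antiA_eq, intervalIntegral.integral_eq_sub_of_hasDerivAt (f := antiA c q) (fun x hx => ?_)
    ((continuous_lossK c q).intervalIntegrable _ _)]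
  · simp [antiA]
  rw [uIcc_of_le hr] at hx
  refine (hasDerivAt_antiA c q x).congr_deriv ?_
  rw [lossK, momK_seg h, min_eq_left (pow_le_one₀ hx.1 (hx.2.trans hr1))]
  ring

/-- The loss along a segment of length at least one. -/
lemma loss_long {c q r : ℝ} (h : c ^ 2 + q ^ 2 = 1) (hr1 : 1 ≤ r) :
    (∫ x in (0:ℝ)..r, lossK c q x) = 4 * cst5 * cubeB c q r + momB c q r := by
  have hcont := continuous_lossK c q
  rw [← intervalIntegral.integral_add_adjacent_intervals (hcont.intervalIntegrable 0 1)
    (hcont.intervalIntegrable 1 r), loss_short h zero_le_one le_rfl, ← antiA_eq, ← antiB_eq,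
    intervalIntegral.integral_eq_sub_of_hasDerivAt (f := antiB c q) (fun x hx => ?_)
    (hcont.intervalIntegrable _ _)]
  rw [uIcc_of_le hr1] at hx
  refine (hasDerivAt_antiB c q x).congr_deriv ?_
  rw [lossK, momK_seg h, min_eq_right (one_le_pow₀ hx.1)]
  ring

end Vale.Agent.P237.Sharp.OneD5
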