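import Vale.Agent.P237.Sharp.OneD5.Check
import Vale.Agent.P237.Sharp.OneD5.Poly

/-!
# P237, sharp route in `ℝ⁵`: the homogenised polynomials as expressions
-/

namespace Vale.Agent.P237.Sharp.OneD5

set_option linter.unusedSimpArgs false

open PExp

/-- `segN` as an expression. -/
def segNE (t rn rd : PExp) : PExp :=
    (.add (.add (.mul (.mul (.mul (.mul (.q (1) 4) (.pw (.mul (.z 2) t) 2)) (.pw (.add (.z 1) (.pw t 2)) 3)) (.pw rn 2)) (.pw rd 5))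
    (.mul (.mul (.mul (.mul (.mul (.q (2) 3) (.sub (.z 1) (.pw t 2))) (.mul (.z 2) t)) (.pw (.add (.z 1) (.pw t 2)) 3)) rn) (.pw rd 6)))
    (.mul (.mul (.mul (.q (1) 2) (.pw (.sub (.z 1) (.pw t 2)) 2)) (.pw (.add (.z 1) (.pw t 2)) 3)) (.pw rd 7)))

set_option maxHeartbeats 1000000 in
lemma val_segNE (t rn rd : PExp) (u v : ℝ) :
    (segNE t rn rd).val u v = segN (t.val u v) (rn.val u v) (rd.val u v) := by
  simp only [segNE, segN, val, Int.cast_ofNat, Int.cast_neg, Int.cast_one, Nat.cast_ofNat, Nat.cast_one]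

/-- `qN` as an expression. -/
def qNE (t rn rd : PExp) : PExp :=
    (.add (.add (.add (.add (.add (.add (.add (.add (.add (.add (.add (.add (.add (.add (.add (.add (.add (.add (.add (.add (.add (.add (.add (.add (.add (.add (.mul (.mul (.mul (.mul (.q (1) 4000) (.pw (.mul (.z 2) t) 2)) (.pw (.add (.z 1) (.pw t 2)) 3)) (.pw rn 2)) (.pw rd 5))
    (.mul (.mul (.mul (.mul (.q (463) 625) (.pw (.mul (.z 2) t) 3)) (.pw (.add (.z 1) (.pw t 2)) 2)) (.pw rn 3)) (.pw rd 4)))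
    (.mul (.mul (.mul (.q (222) 625) (.pw (.mul (.z 2) t) 5)) (.pw rn 3)) (.pw rd 4)))
    (.mul (.mul (.mul (.q (-999) 8750) (.pw (.mul (.z 2) t) 5)) (.pw rn 5)) (.pw rd 2)))
    (.mul (.mul (.q (37) 3750) (.pw (.mul (.z 2) t) 5)) (.pw rn 7)))
    (.mul (.mul (.mul (.mul (.mul (.q (1) 1500) (.sub (.z 1) (.pw t 2))) (.mul (.z 2) t)) (.pw (.add (.z 1) (.pw t 2)) 3)) rn) (.pw rd 6)))
    (.mul (.mul (.mul (.mul (.mul (.q (1389) 500) (.sub (.z 1) (.pw t 2))) (.pw (.mul (.z 2) t) 2)) (.pw (.add (.z 1) (.pw t 2)) 2)) (.pw rn 2)) (.pw rd 5)))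
    (.mul (.mul (.mul (.mul (.q (333) 250) (.sub (.z 1) (.pw t 2))) (.pw (.mul (.z 2) t) 4)) (.pw rn 2)) (.pw rd 5)))
    (.mul (.mul (.mul (.mul (.q (-2849) 2500) (.sub (.z 1) (.pw t 2))) (.pw (.mul (.z 2) t) 4)) (.pw rn 4)) (.pw rd 3)))
    (.mul (.mul (.mul (.mul (.q (1443) 10000) (.sub (.z 1) (.pw t 2))) (.pw (.mul (.z 2) t) 4)) (.pw rn 6)) rd))
    (.mul (.mul (.mul (.q (1) 2000) (.pw (.sub (.z 1) (.pw t 2)) 2)) (.pw (.add (.z 1) (.pw t 2)) 3)) (.pw rd 7)))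
    (.mul (.mul (.mul (.mul (.mul (.q (463) 125) (.pw (.sub (.z 1) (.pw t 2)) 2)) (.mul (.z 2) t)) (.pw (.add (.z 1) (.pw t 2)) 2)) rn) (.pw rd 6)))
    (.mul (.mul (.mul (.mul (.q (222) 125) (.pw (.sub (.z 1) (.pw t 2)) 2)) (.pw (.mul (.z 2) t) 3)) rn) (.pw rd 6)))
    (.mul (.mul (.mul (.mul (.q (-10101) 3125) (.pw (.sub (.z 1) (.pw t 2)) 2)) (.pw (.mul (.z 2) t) 3)) (.pw rn 3)) (.pw rd 4)))
    (.mul (.mul (.mul (.mul (.q (2997) 4375) (.pw (.sub (.z 1) (.pw t 2)) 2)) (.pw (.mul (.z 2) t) 3)) (.pw rn 5)) (.pw rd 2)))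
    (.mul (.mul (.mul (.q (-74) 1875) (.pw (.sub (.z 1) (.pw t 2)) 2)) (.pw (.mul (.z 2) t) 3)) (.pw rn 7)))
    (.mul (.mul (.mul (.q (463) 250) (.pw (.sub (.z 1) (.pw t 2)) 3)) (.pw (.add (.z 1) (.pw t 2)) 2)) (.pw rd 7)))
    (.mul (.mul (.mul (.q (111) 125) (.pw (.sub (.z 1) (.pw t 2)) 3)) (.pw (.mul (.z 2) t) 2)) (.pw rd 7)))
    (.mul (.mul (.mul (.mul (.q (-9657) 2500) (.pw (.sub (.z 1) (.pw t 2)) 3)) (.pw (.mul (.z 2) t) 2)) (.pw rn 2)) (.pw rd 5)))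
    (.mul (.mul (.mul (.mul (.q (1739) 1250) (.pw (.sub (.z 1) (.pw t 2)) 3)) (.pw (.mul (.z 2) t) 2)) (.pw rn 4)) (.pw rd 3)))
    (.mul (.mul (.mul (.mul (.q (-333) 2500) (.pw (.sub (.z 1) (.pw t 2)) 3)) (.pw (.mul (.z 2) t) 2)) (.pw rn 6)) rd))
    (.mul (.mul (.mul (.mul (.q (-481) 250) (.pw (.sub (.z 1) (.pw t 2)) 4)) (.mul (.z 2) t)) rn) (.pw rd 6)))
    (.mul (.mul (.mul (.mul (.q (8103) 6250) (.pw (.sub (.z 1) (.pw t 2)) 4)) (.mul (.z 2) t)) (.pw rn 3)) (.pw rd 4)))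
    (.mul (.mul (.mul (.mul (.q (-666) 4375) (.pw (.sub (.z 1) (.pw t 2)) 4)) (.mul (.z 2) t)) (.pw rn 5)) (.pw rd 2)))
    (.mul (.mul (.q (-111) 500) (.pw (.sub (.z 1) (.pw t 2)) 5)) (.pw rd 7)))
    (.mul (.mul (.mul (.q (2331) 5000) (.pw (.sub (.z 1) (.pw t 2)) 5)) (.pw rn 2)) (.pw rd 5)))
    (.mul (.mul (.mul (.q (-37) 625) (.pw (.sub (.z 1) (.pw t 2)) 5)) (.pw rn 4)) (.pw rd 3)))

set_option maxHeartbeats 1000000 in
lemma val_qNE (t rn rd : PExp) (u v : ℝ) :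
    (qNE t rn rd).val u v = qN (t.val u v) (rn.val u v) (rd.val u v) := by
  simp only [qNE, qN, val, Int.cast_ofNat, Int.cast_neg, Int.cast_one, Nat.cast_ofNat, Nat.cast_one]

/-- `segBN` as an expression. -/
def segBNE (t rn rd : PExp) : PExp :=
    (.add (.add (.mul (.mul (.mul (.mul (.q (1) 4) (.pw (.mul (.z 2) t) 2)) (.pw (.add (.z 1) (.pw t 2)) 3)) (.pw rn 4)) (.pw rd 3))
    (.mul (.mul (.mul (.mul (.mul (.q (2) 3) (.sub (.z 1) (.pw t 2))) (.mul (.z 2) t)) (.pw (.add (.z 1) (.pw t 2)) 3)) (.pw rn 3)) (.pw rd 4)))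
    (.mul (.mul (.mul (.mul (.q (1) 2) (.pw (.sub (.z 1) (.pw t 2)) 2)) (.pw (.add (.z 1) (.pw t 2)) 3)) (.pw rn 2)) (.pw rd 5)))

set_option maxHeartbeats 1000000 in
lemma val_segBNE (t rn rd : PExp) (u v : ℝ) :
    (segBNE t rn rd).val u v = segBN (t.val u v) (rn.val u v) (rd.val u v) := by
  simp only [segBNE, segBN, val, Int.cast_ofNat, Int.cast_neg, Int.cast_one, Nat.cast_ofNat, Nat.cast_one]

/-- `qBN` as an expression. -/
def qBNE (t rn rd : PExp) : PExp :=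
    (.add (.add (.add (.add (.add (.add (.add (.add (.add (.add (.add (.add (.add (.add (.add (.add (.add (.add (.add (.add (.add (.add (.add (.add (.add (.add (.mul (.mul (.mul (.mul (.q (1) 4000) (.pw (.mul (.z 2) t) 2)) (.pw (.add (.z 1) (.pw t 2)) 3)) (.pw rn 4)) (.pw rd 3))
    (.mul (.mul (.mul (.mul (.q (463) 625) (.pw (.mul (.z 2) t) 3)) (.pw (.add (.z 1) (.pw t 2)) 2)) (.pw rn 5)) (.pw rd 2)))
    (.mul (.mul (.q (1147) 65625) (.pw (.mul (.z 2) t) 5)) (.pw rd 7)))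
    (.mul (.mul (.mul (.q (888) 3125) (.pw (.mul (.z 2) t) 5)) (.pw rn 5)) (.pw rd 2)))
    (.mul (.mul (.q (-222) 4375) (.pw (.mul (.z 2) t) 5)) (.pw rn 7)))
    (.mul (.mul (.mul (.mul (.mul (.q (1) 1500) (.sub (.z 1) (.pw t 2))) (.mul (.z 2) t)) (.pw (.add (.z 1) (.pw t 2)) 3)) (.pw rn 3)) (.pw rd 4)))
    (.mul (.mul (.mul (.mul (.mul (.q (1389) 500) (.sub (.z 1) (.pw t 2))) (.pw (.mul (.z 2) t) 2)) (.pw (.add (.z 1) (.pw t 2)) 2)) (.pw rn 4)) (.pw rd 3)))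
    (.mul (.mul (.mul (.q (407) 10000) (.sub (.z 1) (.pw t 2))) (.pw (.mul (.z 2) t) 4)) (.pw rd 7)))
    (.mul (.mul (.mul (.mul (.q (666) 625) (.sub (.z 1) (.pw t 2))) (.pw (.mul (.z 2) t) 4)) (.pw rn 4)) (.pw rd 3)))
    (.mul (.mul (.mul (.mul (.q (-481) 625) (.sub (.z 1) (.pw t 2))) (.pw (.mul (.z 2) t) 4)) (.pw rn 6)) rd))
    (.mul (.mul (.mul (.mul (.q (1) 2000) (.pw (.sub (.z 1) (.pw t 2)) 2)) (.pw (.add (.z 1) (.pw t 2)) 3)) (.pw rn 2)) (.pw rd 5)))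
    (.mul (.mul (.mul (.mul (.mul (.q (463) 125) (.pw (.sub (.z 1) (.pw t 2)) 2)) (.mul (.z 2) t)) (.pw (.add (.z 1) (.pw t 2)) 2)) (.pw rn 3)) (.pw rd 4)))
    (.mul (.mul (.mul (.q (-1258) 65625) (.pw (.sub (.z 1) (.pw t 2)) 2)) (.pw (.mul (.z 2) t) 3)) (.pw rd 7)))
    (.mul (.mul (.mul (.mul (.q (888) 625) (.pw (.sub (.z 1) (.pw t 2)) 2)) (.pw (.mul (.z 2) t) 3)) (.pw rn 3)) (.pw rd 4)))
    (.mul (.mul (.mul (.mul (.q (-7548) 3125) (.pw (.sub (.z 1) (.pw t 2)) 2)) (.pw (.mul (.z 2) t) 3)) (.pw rn 5)) (.pw rd 2)))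
    (.mul (.mul (.mul (.q (888) 4375) (.pw (.sub (.z 1) (.pw t 2)) 2)) (.pw (.mul (.z 2) t) 3)) (.pw rn 7)))
    (.mul (.mul (.mul (.mul (.q (463) 250) (.pw (.sub (.z 1) (.pw t 2)) 3)) (.pw (.add (.z 1) (.pw t 2)) 2)) (.pw rn 2)) (.pw rd 5)))
    (.mul (.mul (.mul (.q (-74) 625) (.pw (.sub (.z 1) (.pw t 2)) 3)) (.pw (.mul (.z 2) t) 2)) (.pw rd 7)))
    (.mul (.mul (.mul (.mul (.q (444) 625) (.pw (.sub (.z 1) (.pw t 2)) 3)) (.pw (.mul (.z 2) t) 2)) (.pw rn 2)) (.pw rd 5)))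
    (.mul (.mul (.mul (.mul (.q (-1887) 625) (.pw (.sub (.z 1) (.pw t 2)) 3)) (.pw (.mul (.z 2) t) 2)) (.pw rn 4)) (.pw rd 3)))
    (.mul (.mul (.mul (.mul (.q (444) 625) (.pw (.sub (.z 1) (.pw t 2)) 3)) (.pw (.mul (.z 2) t) 2)) (.pw rn 6)) rd))
    (.mul (.mul (.mul (.q (-407) 4375) (.pw (.sub (.z 1) (.pw t 2)) 4)) (.mul (.z 2) t)) (.pw rd 7)))
    (.mul (.mul (.mul (.mul (.q (-962) 625) (.pw (.sub (.z 1) (.pw t 2)) 4)) (.mul (.z 2) t)) (.pw rn 3)) (.pw rd 4)))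
    (.mul (.mul (.mul (.mul (.q (2664) 3125) (.pw (.sub (.z 1) (.pw t 2)) 4)) (.mul (.z 2) t)) (.pw rn 5)) (.pw rd 2)))
    (.mul (.mul (.q (37) 5000) (.pw (.sub (.z 1) (.pw t 2)) 5)) (.pw rd 7)))
    (.mul (.mul (.mul (.q (-111) 625) (.pw (.sub (.z 1) (.pw t 2)) 5)) (.pw rn 2)) (.pw rd 5)))
    (.mul (.mul (.mul (.q (222) 625) (.pw (.sub (.z 1) (.pw t 2)) 5)) (.pw rn 4)) (.pw rd 3)))

set_option maxHeartbeats 1000000 in
lemma val_qBNE (t rn rd : PExp) (u v : ℝ) :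
    (qBNE t rn rd).val u v = qBN (t.val u v) (rn.val u v) (rd.val u v) := by
  simp only [qBNE, qBN, val, Int.cast_ofNat, Int.cast_neg, Int.cast_one, Nat.cast_ofNat, Nat.cast_one]

/-- `lowN` as an expression. -/
def lowNE (t rn rd : PExp) : PExp :=
    (.add (.add (.mul (.mul (.q (17577) 12800) (.pw (.mul (.z 2) t) 2)) (.pw rn 5))
    (.mul (.mul (.mul (.mul (.q (1953) 640) (.sub (.z 1) (.pw t 2))) (.mul (.z 2) t)) (.pw rn 4)) rd))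
    (.mul (.mul (.mul (.q (217) 128) (.pw (.sub (.z 1) (.pw t 2)) 2)) (.pw rn 3)) (.pw rd 2)))

set_option maxHeartbeats 1000000 in
lemma val_lowNE (t rn rd : PExp) (u v : ℝ) :
    (lowNE t rn rd).val u v = lowN (t.val u v) (rn.val u v) (rd.val u v) := by
  simp only [lowNE, lowN, val, Int.cast_ofNat, Int.cast_neg, Int.cast_one, Nat.cast_ofNat, Nat.cast_one]

/-- `excN` as an expression. -/
def excNE (t rn rd : PExp) : PExp :=
    (.add (.add (.add (.add (.add (.add (.add (.add (.add (.add (.add (.add (.add (.add (.add (.add (.add (.add (.add (.mul (.mul (.mul (.q (-9765) 512) (.pw (.add (.z 1) (.pw t 2)) 4)) t) (.pw rd 4))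
    (.mul (.mul (.mul (.q (-651) 128) (.pw (.add (.z 1) (.pw t 2)) 4)) (.pw t 3)) (.pw rd 4)))
    (.mul (.mul (.mul (.q (3255) 128) (.pw (.mul (.z 2) t) 4)) (.pw rn 3)) rd))
    (.mul (.mul (.mul (.mul (.q (1953) 128) (.pw (.mul (.z 2) t) 4)) (.pw t 2)) (.pw rn 3)) rd))
    (.mul (.mul (.mul (.mul (.q (-3255) 256) (.sub (.z 1) (.pw t 2))) (.mul (.z 2) t)) (.pw (.add (.z 1) (.pw t 2)) 2)) (.pw rd 4)))
    (.mul (.mul (.mul (.mul (.mul (.q (-1953) 256) (.sub (.z 1) (.pw t 2))) (.mul (.z 2) t)) (.pw (.add (.z 1) (.pw t 2)) 2)) (.pw t 2)) (.pw rd 4)))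
    (.mul (.mul (.mul (.q (3255) 1024) (.sub (.z 1) (.pw t 2))) (.pw (.mul (.z 2) t) 3)) (.pw rd 4)))
    (.mul (.mul (.mul (.mul (.q (1953) 1024) (.sub (.z 1) (.pw t 2))) (.pw (.mul (.z 2) t) 3)) (.pw t 2)) (.pw rd 4)))
    (.mul (.mul (.mul (.mul (.q (9765) 128) (.sub (.z 1) (.pw t 2))) (.pw (.mul (.z 2) t) 3)) (.pw rn 2)) (.pw rd 2)))
    (.mul (.mul (.mul (.mul (.mul (.q (5859) 128) (.sub (.z 1) (.pw t 2))) (.pw (.mul (.z 2) t) 3)) (.pw t 2)) (.pw rn 2)) (.pw rd 2)))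
    (.mul (.mul (.mul (.q (-9765) 512) (.sub (.z 1) (.pw t 2))) (.pw (.mul (.z 2) t) 3)) (.pw rn 4)))
    (.mul (.mul (.mul (.mul (.q (-5859) 512) (.sub (.z 1) (.pw t 2))) (.pw (.mul (.z 2) t) 3)) (.pw t 2)) (.pw rn 4)))
    (.mul (.mul (.mul (.mul (.q (9765) 128) (.pw (.sub (.z 1) (.pw t 2)) 2)) (.pw (.mul (.z 2) t) 2)) rn) (.pw rd 3)))
    (.mul (.mul (.mul (.mul (.mul (.q (5859) 128) (.pw (.sub (.z 1) (.pw t 2)) 2)) (.pw (.mul (.z 2) t) 2)) (.pw t 2)) rn) (.pw rd 3)))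
    (.mul (.mul (.mul (.mul (.q (-3255) 64) (.pw (.sub (.z 1) (.pw t 2)) 2)) (.pw (.mul (.z 2) t) 2)) (.pw rn 3)) rd))
    (.mul (.mul (.mul (.mul (.mul (.q (-1953) 64) (.pw (.sub (.z 1) (.pw t 2)) 2)) (.pw (.mul (.z 2) t) 2)) (.pw t 2)) (.pw rn 3)) rd))
    (.mul (.mul (.mul (.q (22785) 1024) (.pw (.sub (.z 1) (.pw t 2)) 3)) (.mul (.z 2) t)) (.pw rd 4)))
    (.mul (.mul (.mul (.mul (.q (13671) 1024) (.pw (.sub (.z 1) (.pw t 2)) 3)) (.mul (.z 2) t)) (.pw t 2)) (.pw rd 4)))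
    (.mul (.mul (.mul (.mul (.q (-9765) 256) (.pw (.sub (.z 1) (.pw t 2)) 3)) (.mul (.z 2) t)) (.pw rn 2)) (.pw rd 2)))
    (.mul (.mul (.mul (.mul (.mul (.q (-5859) 256) (.pw (.sub (.z 1) (.pw t 2)) 3)) (.mul (.z 2) t)) (.pw t 2)) (.pw rn 2)) (.pw rd 2)))

set_option maxHeartbeats 1000000 in
lemma val_excNE (t rn rd : PExp) (u v : ℝ) :
    (excNE t rn rd).val u v = excN (t.val u v) (rn.val u v) (rd.val u v) := by
  simp only [excNE, excN, val, Int.cast_ofNat, Int.cast_neg, Int.cast_one, Nat.cast_ofNat, Nat.cast_one]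

/-- `linN` as an expression. -/
def linNE (t rn rd : PExp) : PExp :=
    (.add (.add (.add (.add (.mul (.mul (.mul (.q (21) 40) (.pw (.mul (.z 2) t) 2)) (.pw rn 2)) (.pw rd 2))
    (.mul (.mul (.q (-93) 200) (.pw (.mul (.z 2) t) 2)) (.pw rn 4)))
    (.mul (.mul (.mul (.mul (.q (2) 5) (.sub (.z 1) (.pw t 2))) (.mul (.z 2) t)) rn) (.pw rd 3)))
    (.mul (.mul (.mul (.mul (.q (-71) 50) (.sub (.z 1) (.pw t 2))) (.mul (.z 2) t)) (.pw rn 3)) rd))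
    (.mul (.mul (.mul (.q (-4) 5) (.pw (.sub (.z 1) (.pw t 2)) 2)) (.pw rn 2)) (.pw rd 2)))

set_option maxHeartbeats 1000000 in
lemma val_linNE (t rn rd : PExp) (u v : ℝ) :
    (linNE t rn rd).val u v = linN (t.val u v) (rn.val u v) (rd.val u v) := by
  simp only [linNE, linN, val, Int.cast_ofNat, Int.cast_neg, Int.cast_one, Nat.cast_ofNat, Nat.cast_one]

/-- `excB` as an expression. -/
def excBE (t rn rd : PExp) : PExp :=
    (.sub (.mul (.q 5 8) (excNE t rn rd)) (.mul (.q 3 8) (.mul (.mul (.add (.z 15) (.mul (.z 9) (.pw t 2))) (.pw (.add (.z 1) (.pw t 2)) 4)) (.pw rd 4))))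

set_option maxHeartbeats 1000000 in
lemma val_excBE (t rn rd : PExp) (u v : ℝ) :
    (excBE t rn rd).val u v = excB (t.val u v) (rn.val u v) (rd.val u v) := by
  simp only [excBE, excB, val_excNE, val, Int.cast_ofNat, Int.cast_neg, Int.cast_one, Nat.cast_ofNat, Nat.cast_one]

/-- `headPoly` as an expression. -/
def headPolyE (t rn rd : PExp) : PExp :=
    (.sub (.mul (.mul (.mul (.z 4) (.q (13733) 16384)) (.add (.mul (.z 3) (.mul (.mul (.add (.z 15) (.mul (.z 9) (.pw t 2))) (.pw (.add (.z 1) (.pw t 2)) 4)) (.pw rd 4))) (.mul (.z 2) (excNE t rn rd)))) (segNE t rn rd))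
      (.mul (.add (.mul (.z 3) (.mul (.mul (.add (.z 15) (.mul (.z 9) (.pw t 2))) (.pw (.add (.z 1) (.pw t 2)) 4)) (.pw rd 4))) (excNE t rn rd)) (qNE t rn rd)))

set_option maxHeartbeats 1000000 in
lemma val_headPolyE (t rn rd : PExp) (u v : ℝ) :
    (headPolyE t rn rd).val u v = headPoly (t.val u v) (rn.val u v) (rd.val u v) := by
  simp only [headPolyE, headPoly, val_excNE, val_segNE, val_qNE, val, Int.cast_ofNat, Int.cast_neg, Int.cast_one, Nat.cast_ofNat, Nat.cast_one]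

/-- `headBPoly` as an expression. -/
def headBPolyE (t rn rd : PExp) : PExp :=
    (.sub (.mul (.mul (.mul (.z 4) (.mul (.q (13733) 16384) (.q (299) 256))) (.add (.mul (.z 3) (.mul (.mul (.add (.z 15) (.mul (.z 9) (.pw t 2))) (.pw (.add (.z 1) (.pw t 2)) 4)) (.pw rd 4))) (.mul (.z 2) (excBE t rn rd)))) (segBNE t rn rd))
      (.mul (.add (.mul (.z 3) (.mul (.mul (.add (.z 15) (.mul (.z 9) (.pw t 2))) (.pw (.add (.z 1) (.pw t 2)) 4)) (.pw rd 4))) (excBE t rn rd)) (qBNE t rn rd)))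

set_option maxHeartbeats 1000000 in
lemma val_headBPolyE (t rn rd : PExp) (u v : ℝ) :
    (headBPolyE t rn rd).val u v = headBPoly (t.val u v) (rn.val u v) (rd.val u v) := by
  simp only [headBPolyE, headBPoly, val_excBE, val_segBNE, val_qBNE, val, Int.cast_ofNat, Int.cast_neg, Int.cast_one, Nat.cast_ofNat, Nat.cast_one]

/-- `midPoly` as an expression. -/
def midPolyE (t s : PExp) : PExp :=
    (.sub (.mul (.mul (.mul (.z 4) (.q (13733) 16384)) (.add (.mul (.z 3) (.mul (.add (.z 1) (.pw (.mul t s) 2)) (.pw (.add (.z 1) (.pw t 2)) 2))) (.mul (.z 2) (lowNE t (.mul t s) (.z 1))))) (segNE t (.mul t s) (.z 1)))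
      (.mul (.add (.mul (.z 3) (.mul (.add (.z 1) (.pw (.mul t s) 2)) (.pw (.add (.z 1) (.pw t 2)) 2))) (lowNE t (.mul t s) (.z 1))) (qNE t (.mul t s) (.z 1))))

lemma val_midPolyE (t s : PExp) (u v : ℝ) :
    (midPolyE t s).val u v = midPoly (t.val u v) (s.val u v) := by
  simp only [midPolyE, midPoly, val_lowNE, val_segNE, val_qNE, val, Int.cast_ofNat, Int.cast_neg, Int.cast_one, Nat.cast_ofNat, Nat.cast_one]

end Vale.Agent.P237.Sharp.OneD5
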