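import Mathlib
import Vale.Agent.P237.Sharp.OneD3.Ineq
import Vale.Agent.P237.Sharp.OneD5.Deriv
import Vale.Agent.P237.Sharp.OneD5.CertMid
import Vale.Agent.P237.Sharp.OneD5.CertHead
import Vale.Agent.P237.Sharp.OneD5.CertB0
import Vale.Agent.P237.Sharp.OneD5.CertB1
import Vale.Agent.P237.Sharp.OneD5.CertB2

/-!
# P237, sharp route in `ℝ⁵`: the two elementary inequalities

Along a cap a segment of length `r` on the tangent at `(q, c) = (ss τ, cc τ)` contributes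
`4 P^(1/3) r² seg - loss - r² seg/1000` to the derivative of the gap. With
`(1+X)^(1/3) ≥ (3+2X)/(3+X)` and a rational bound for `arctan` this becomes a polynomial
inequality on boxes, proved by Bernstein coefficients.
-/

open Real

namespace Vale.Agent.P237.Sharp.OneD5

open Vale.Agent.P237.Sharp.OneD3 (cc ss arctan_le_rational)

lemma le_rpow_third {a x : ℝ} (ha : 0 ≤ a) (h : a ^ 3 ≤ x) : a ≤ x ^ (1 / 3 : ℝ) := by
  calc a = (a ^ 3) ^ (1 / 3 : ℝ) := by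
        rw [← Real.rpow_natCast, ← Real.rpow_mul ha]; norm_num
    _ ≤ x ^ (1 / 3 : ℝ) := Real.rpow_le_rpow (by positivity) h (by norm_num)

lemma k0_cube : (13733 / 16384 : ℝ) ^ 3 ≤ 3 * π / 16 := by
  linarith [pi_gt_d6, show (13733 / 16384 : ℝ) ^ 3 ≤ 3 * 3.141592 / 16 by norm_num]

lemma k2_le : 217 / 128 * (3 * π / 16) ≤ 1 := by
  linarith [pi_lt_d6, show (217 / 128 : ℝ) * (3 * 3.141593 / 16) ≤ 1 by norm_num]

lemma cst5_nonneg : 0 ≤ cst5 := by unfold cst5; positivity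

lemma cst5_le : cst5 ≤ 926 / 1000 := by
  have h0 : 0 < 3 * π / 16 := by positivity
  have h1 : (3 * π / 16) ^ (1 / 3 : ℝ) ≤ 83828 / 100000 := by
    calc (3 * π / 16) ^ (1 / 3 : ℝ) ≤ ((83828 / 100000 : ℝ) ^ 3) ^ (1 / 3 : ℝ) :=
          Real.rpow_le_rpow h0.le (by
            linarith [pi_lt_d6, show (3 * 3.141593 / 16 : ℝ) ≤ (83828 / 100000) ^ 3 by norm_num])
            (by norm_num)
      _ = _ := by rw [← Real.rpow_natCast, ← Real.rpow_mul (by norm_num)]; norm_num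
  rw [cst5, show (4 / 3 : ℝ) = 1 + 1 / 3 by norm_num, Real.rpow_add h0, Real.rpow_one,
    div_le_iff₀ (by norm_num)]
  calc 3 * π / 16 * (3 * π / 16) ^ (1 / 3 : ℝ) ≤ (3 * 3.141593 / 16) * (83828 / 100000) :=
        mul_le_mul (by linarith [pi_lt_d6]) h1 (by positivity) (by norm_num)
    _ ≤ _ := by norm_num

lemma pade {X : ℝ} (hX : 0 ≤ X) : ((3 + 2 * X) / (3 + X)) ^ 3 ≤ 1 + X := by
  rw [div_pow, div_le_iff₀ (by positivity)]
  nlinarith [pow_nonneg hX 3, pow_nonneg hX 4]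

/-- From the homogenised inequality to a bound on the loss. -/
lemma key {k xn xd sN qN X s q scale : ℝ} (hxd : 0 < xd) (hscale : 0 < scale) (hX : 0 ≤ X)
    (hn : xn = X * xd) (hs : sN = scale * s) (hq : qN = scale * q)
    (h : 0 ≤ 4 * k * (3 * xd + 2 * xn) * sN - (3 * xd + xn) * qN) :
    q ≤ 4 * (k * ((3 + 2 * X) / (3 + X))) * s := by
  rw [hn, hs, hq] at h
  have h' : 0 ≤ 4 * k * (3 + 2 * X) * s - (3 + X) * q :=
    nonneg_of_mul_nonneg_right (le_of_le_of_eq h (by ring))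
      (show 0 < xd * scale by positivity)
  rw [show 4 * (k * ((3 + 2 * X) / (3 + X))) * s = 4 * k * (3 + 2 * X) * s / (3 + X) by ring,
    le_div_iff₀ (by linarith)]
  linarith

section

variable {τ : ℝ}

lemma cc_nonneg (h0 : 0 ≤ τ) (h1 : τ ≤ 1) : 0 ≤ cc τ :=
  div_nonneg (by nlinarith) (by positivity)

lemma ss_nonneg (h0 : 0 ≤ τ) : 0 ≤ ss τ := div_nonneg (by linarith) (by positivity)

lemma cc_sq_add (τ : ℝ) : cc τ ^ 2 + ss τ ^ 2 = 1 := by
  simp only [cc, ss]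
  have : (1 + τ ^ 2) ≠ 0 := by positivity
  field_simp
  ring

lemma segN_eq (τ r : ℝ) {rd : ℝ} :
    segN τ (r * rd) rd = (1 + τ ^ 2) ^ 5 * rd ^ 7 * seg (cc τ) (ss τ) r := by
  have : (1 + τ ^ 2) ≠ 0 := by positivity
  simp only [segN, seg, cc, ss]
  field_simp

set_option maxHeartbeats 1000000 in
lemma qN_eq (τ r : ℝ) {rd : ℝ} :
    qN τ (r * rd) rd = (1 + τ ^ 2) ^ 5 * rd ^ 7 * (4 * (926 / 1000) * cube (cc τ) (ss τ) r +
      momA (cc τ) (ss τ) r + seg (cc τ) (ss τ) r / 1000) := by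
  have : (1 + τ ^ 2) ≠ 0 := by positivity
  simp only [qN, cube, momA, seg, cc, ss]
  field_simp
  ring

lemma segBN_eq (τ r : ℝ) {rd : ℝ} :
    segBN τ (r * rd) rd = (1 + τ ^ 2) ^ 5 * rd ^ 7 * segB (cc τ) (ss τ) r := by
  have : (1 + τ ^ 2) ≠ 0 := by positivity
  simp only [segBN, segB, cc, ss]
  field_simp

set_option maxHeartbeats 1000000 in
lemma qBN_eq (τ r : ℝ) {rd : ℝ} :
    qBN τ (r * rd) rd = (1 + τ ^ 2) ^ 5 * rd ^ 7 * (4 * (926 / 1000) * cubeB (cc τ) (ss τ) r +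
      momB (cc τ) (ss τ) r + segB (cc τ) (ss τ) r / 1000) := by
  have : (1 + τ ^ 2) ≠ 0 := by positivity
  simp only [qBN, cubeB, momB, segB, cc, ss]
  field_simp
  ring

set_option maxHeartbeats 1000000 in
lemma excN_eq (τ r : ℝ) {rd : ℝ} :
    excN τ (r * rd) rd = (1 + τ ^ 2) ^ 4 * rd ^ 4 * (217 / 128 *
      (excPoly (cc τ) (ss τ) r * (15 + 9 * τ ^ 2) - 3 / 4 * (τ * (15 + 4 * τ ^ 2)))) := by
  have : (1 + τ ^ 2) ≠ 0 := by positivity
  simp only [excN, excPoly, cc, ss]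
  field_simp
  ring

lemma lowN_eq (τ r : ℝ) :
    lowN τ r 1 = (1 + τ ^ 2) ^ 2 * (217 / 128 * lowMid (cc τ) (ss τ) r) := by
  have : (1 + τ ^ 2) ≠ 0 := by positivity
  simp only [lowN, lowMid, cc, ss]
  field_simp
  ring

lemma linN_eq (τ r : ℝ) :
    linN τ r 1 = (1 + τ ^ 2) ^ 2 * linPoly (cc τ) (ss τ) r := by
  have : (1 + τ ^ 2) ≠ 0 := by positivity
  simp only [linN, linPoly, cc, ss]
  field_simp

lemma segB_eq (c q r : ℝ) : segB c q r = r ^ 2 * seg c q r := by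
  simp only [segB, seg]; ring

lemma seg_nonneg {c q r : ℝ} (hc : 0 ≤ c) (hq : 0 ≤ q) (hr : 0 ≤ r) : 0 ≤ seg c q r := by
  unfold seg; positivity

lemma cube_nonneg {c q r : ℝ} (hc : 0 ≤ c) (hq : 0 ≤ q) (hr : 0 ≤ r) :
    0 ≤ cube c q r ∧ 0 ≤ cubeB c q r := by
  unfold cube cubeB; constructor <;> positivity

lemma exists_mid {τ r : ℝ} (hr : 0 ≤ r) (hrt : r ≤ τ) :
    ∃ σ, 0 ≤ σ ∧ σ ≤ 1 ∧ r = τ * σ := by
  have h0 : 0 ≤ τ := hr.trans hrt
  refine ⟨r / τ, div_nonneg hr h0, div_le_one_of_le₀ hrt h0, ?_⟩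
  rcases h0.eq_or_lt with h | h
  · subst h
    simp [le_antisymm hrt hr]
  · field_simp

lemma linPoly_nonneg {τ r : ℝ} (hr : 0 ≤ r) (hrt : r ≤ τ) (ht : τ ≤ 1) :
    0 ≤ linPoly (cc τ) (ss τ) r := by
  obtain ⟨σ, h0, h1, rfl⟩ := exists_mid hr hrt
  have h := linCert (τ := τ) (σ := σ) (hr.trans hrt) ht h0 h1
  rw [linN_eq] at h
  exact nonneg_of_mul_nonneg_right h (by positivity)

lemma lowMid_nonneg {c q r : ℝ} (hc : 0 ≤ c) (hq : 0 ≤ q) (hr : 0 ≤ r) : 0 ≤ lowMid c q r := by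
  unfold lowMid; positivity

/-- Caps whose left tangency lies in `[0,1]`. -/
theorem midIneq {τ r P : ℝ} (hr : 0 ≤ r) (hrt : r ≤ τ) (ht : τ ≤ 1)
    (hP : 3 * π / 16 + lowMid (cc τ) (ss τ) r / (1 + r ^ 2) ≤ P) :
    (∫ x in (0:ℝ)..r, lossK (cc τ) (ss τ) x) + r ^ 2 * seg (cc τ) (ss τ) r / 1000 ≤
      4 * P ^ (1 / 3 : ℝ) * (r ^ 2 * seg (cc τ) (ss τ) r) := by
  have h0 : 0 ≤ τ := hr.trans hrt
  have hc := cc_nonneg h0 ht
  have hq := ss_nonneg h0
  have hs := seg_nonneg hc hq hr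
  set L := lowMid (cc τ) (ss τ) r / (1 + r ^ 2) with hLdef
  have hL : 0 ≤ L := div_nonneg (lowMid_nonneg hc hq hr) (by positivity)
  set X := 217 / 128 * L with hXdef
  have hX : 0 ≤ X := by positivity
  have hk : 13733 / 16384 * ((3 + 2 * X) / (3 + X)) ≤ P ^ (1 / 3 : ℝ) := by
    refine le_rpow_third (by positivity) ?_
    rw [mul_pow]
    refine (mul_le_mul k0_cube (pade hX) (by positivity) (by positivity)).trans ?_
    have : 3 * π / 16 * X ≤ L := by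
      calc 3 * π / 16 * X = (217 / 128 * (3 * π / 16)) * L := by rw [hXdef]; ring
        _ ≤ 1 * L := mul_le_mul_of_nonneg_right k2_le hL
        _ = L := one_mul _
    linarith
  obtain ⟨σ, h1, h2, rfl⟩ := exists_mid hr hrt
  have hcert : 0 ≤ midPoly τ σ := by
    rcases le_total τ (1 / 2) with h | h
    · exact midCert0 h0 h h1 h2
    · exact midCert1 h ht h1 h2
  have hq' := key (X := X) (scale := (1 + τ ^ 2) ^ 5 * (1:ℝ) ^ 7) (by positivity) (by positivity) hX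
    (by rw [lowN_eq, hXdef, hLdef]; field_simp)
    (by simpa using segN_eq τ (τ * σ) (rd := 1)) (by simpa using qN_eq τ (τ * σ) (rd := 1)) hcert
  rw [loss_short (cc_sq_add τ) hr (hrt.trans ht)]
  have hcu := mul_le_mul_of_nonneg_right cst5_le (cube_nonneg hc hq hr).1
  have h3 := mul_le_mul_of_nonneg_right (mul_le_mul_of_nonneg_left hk (by norm_num : (0:ℝ) ≤ 4)) hs
  calc (τ * σ) ^ 2 * (4 * cst5 * cube (cc τ) (ss τ) (τ * σ) + momA (cc τ) (ss τ) (τ * σ)) +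
        (τ * σ) ^ 2 * seg (cc τ) (ss τ) (τ * σ) / 1000
      = (τ * σ) ^ 2 * (4 * cst5 * cube (cc τ) (ss τ) (τ * σ) + momA (cc τ) (ss τ) (τ * σ) +
          seg (cc τ) (ss τ) (τ * σ) / 1000) := by ring
    _ ≤ (τ * σ) ^ 2 * (4 * P ^ (1 / 3 : ℝ) * seg (cc τ) (ss τ) (τ * σ)) :=
        mul_le_mul_of_nonneg_left (by linarith) (sq_nonneg _)
    _ = _ := by ring

/-- The lower bound for the excess of a head cap. -/
noncomputable def excLow (τ r : ℝ) : ℝ :=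
  excPoly (cc τ) (ss τ) r - 3 / 4 * (τ * (15 + 4 * τ ^ 2) / (15 + 9 * τ ^ 2))

lemma excN_eq' (τ r : ℝ) {rd : ℝ} : excN τ (r * rd) rd =
    217 / 128 * excLow τ r * ((15 + 9 * τ ^ 2) * (1 + τ ^ 2) ^ 4 * rd ^ 4) := by
  have : (15 + 9 * τ ^ 2) ≠ 0 := by positivity
  rw [excN_eq, excLow]
  field_simp

/-- Head caps with `r ≤ 1`. -/
lemma head_short {τ r rn rd P : ℝ} (h0 : 0 ≤ τ) (h1 : τ ≤ 1) (hr : 0 ≤ r) (hr1 : r ≤ 1)
    (hrd : 0 < rd) (hrn : rn = r * rd) (hE : 0 ≤ excN τ rn rd) (hcert : 0 ≤ headPoly τ rn rd)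
    (hP : 3 * π / 16 + excLow τ r ≤ P) :
    (∫ x in (0:ℝ)..r, lossK (cc τ) (ss τ) x) + r ^ 2 * seg (cc τ) (ss τ) r / 1000 ≤
      4 * P ^ (1 / 3 : ℝ) * (r ^ 2 * seg (cc τ) (ss τ) r) := by
  subst hrn
  have hc := cc_nonneg h0 h1
  have hq := ss_nonneg h0
  have hs := seg_nonneg hc hq hr
  have hxd : 0 < (15 + 9 * τ ^ 2) * (1 + τ ^ 2) ^ 4 * rd ^ 4 := by positivity
  set X := 217 / 128 * excLow τ r with hXdef
  have hX : 0 ≤ X := by
    rw [excN_eq'] at hE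
    exact nonneg_of_mul_nonneg_left hE hxd
  have hL : 0 ≤ excLow τ r := by
    have := nonneg_of_mul_nonneg_right hX (by norm_num); exact this
  have hk : 13733 / 16384 * ((3 + 2 * X) / (3 + X)) ≤ P ^ (1 / 3 : ℝ) := by
    refine le_rpow_third (by positivity) ?_
    rw [mul_pow]
    refine (mul_le_mul k0_cube (pade hX) (by positivity) (by positivity)).trans ?_
    have : 3 * π / 16 * X ≤ excLow τ r := by
      calc 3 * π / 16 * X = (217 / 128 * (3 * π / 16)) * excLow τ r := by rw [hXdef]; ring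
        _ ≤ 1 * excLow τ r := mul_le_mul_of_nonneg_right k2_le hL
        _ = _ := one_mul _
    linarith
  have hq' := key (X := X) hxd (show 0 < (1 + τ ^ 2) ^ 5 * rd ^ 7 by positivity) hX
    (excN_eq' τ r) (segN_eq τ r) (qN_eq τ r) hcert
  rw [loss_short (cc_sq_add τ) hr hr1]
  have hcu := mul_le_mul_of_nonneg_right cst5_le (cube_nonneg hc hq hr).1
  have h3 := mul_le_mul_of_nonneg_right (mul_le_mul_of_nonneg_left hk (by norm_num : (0:ℝ) ≤ 4)) hs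
  calc r ^ 2 * (4 * cst5 * cube (cc τ) (ss τ) r + momA (cc τ) (ss τ) r) +
        r ^ 2 * seg (cc τ) (ss τ) r / 1000
      = r ^ 2 * (4 * cst5 * cube (cc τ) (ss τ) r + momA (cc τ) (ss τ) r +
          seg (cc τ) (ss τ) r / 1000) := by ring
    _ ≤ r ^ 2 * (4 * P ^ (1 / 3 : ℝ) * seg (cc τ) (ss τ) r) :=
        mul_le_mul_of_nonneg_left (by linarith) (sq_nonneg _)
    _ = _ := by ring

/-- Head caps with `r ≥ 1`. -/
lemma head_long {τ r P : ℝ} (h0 : 0 ≤ τ) (h1 : τ ≤ 1) (hr1 : 1 ≤ r) (hrc : r * cc τ ≤ ss τ)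
    (hP : 3 * π / 16 + excLow τ r ≤ P) :
    (∫ x in (0:ℝ)..r, lossK (cc τ) (ss τ) x) + r ^ 2 * seg (cc τ) (ss τ) r / 1000 ≤
      4 * P ^ (1 / 3 : ℝ) * (r ^ 2 * seg (cc τ) (ss τ) r) := by
  have hr : 0 < r := zero_lt_one.trans_le hr1
  have hc := cc_nonneg h0 h1
  have hq := ss_nonneg h0
  have hs := seg_nonneg hc hq hr.le
  have hD : 0 < 1 + τ ^ 2 := by positivity
  have hrc' : r * (1 - τ ^ 2) ≤ 2 * τ := by
    simp only [cc, ss] at hrc
    rw [← mul_div_assoc, div_le_div_iff_of_pos_right hD] at hrc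
    exact hrc
  have hq1 : 1 - τ ^ 2 ≤ 2 * τ := by
    refine le_trans ?_ hrc'
    exact le_mul_of_one_le_left (by nlinarith) hr1
  have hτ : (13 / 32 : ℝ) ≤ τ := by nlinarith
  have hτ0 : 0 < τ := by linarith
  have hw : 1 / r ≤ 1 := by rw [div_le_one hr]; exact hr1
  have hw' : 1 - τ ^ 2 ≤ 2 * τ * (1 / r) := by
    rw [mul_one_div, le_div_iff₀ hr]; linarith
  -- `r = 1 / (1 - σ φ)` with `φ ≥ 1 - (1 - τ²)/(2τ)` linear in `τ`
  obtain ⟨rd, hrd, hσ, hE, hcert⟩ : ∃ rd, 0 < rd ∧ r * rd = 1 ∧ 0 ≤ excB τ 1 rd ∧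
      0 ≤ headBPoly τ 1 rd := by
    refine ⟨1 / r, by positivity, by field_simp, ?_⟩
    rcases le_or_gt τ (5 / 8) with h | h
    · have hφ : 0 < 5 / 2 * τ - 1 := by nlinarith
      obtain ⟨σ, h0σ, h1σ, e⟩ : ∃ σ, 0 ≤ σ ∧ σ ≤ 1 ∧ 1 / r = 1 - σ * (5 / 2 * τ - 1) := by
        refine ⟨(1 - 1 / r) / (5 / 2 * τ - 1), div_nonneg (by linarith) hφ.le,
          div_le_one_of_le₀ (by nlinarith [sq_nonneg (2 * τ - 1)]) hφ.le, ?_⟩
        rw [div_mul_cancel₀ _ hφ.ne']; ring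
      rw [e]
      exact ⟨headBExc0 hτ h h0σ h1σ, headBCert0 hτ h h0σ h1σ⟩
    · obtain ⟨σ, h0σ, h1σ, e⟩ : ∃ σ, 0 ≤ σ ∧ σ ≤ 1 ∧ 1 / r = 1 - σ * τ := by
        refine ⟨(1 - 1 / r) / τ, div_nonneg (by linarith) hτ0.le,
          div_le_one_of_le₀ (by nlinarith [sq_nonneg (1 - τ)]) hτ0.le, ?_⟩
        rw [div_mul_cancel₀ _ hτ0.ne']; ring
      rw [e]
      refine ⟨headBExc1 h.le h1 h0σ h1σ, ?_⟩
      rcases le_total σ (1 / 2) with h' | h'
      · exact headBCert1 h.le h1 h0σ h'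
      rcases le_total τ (13 / 16) with h'' | h''
      · exact headBCert2 h.le h'' h' h1σ
      rcases le_total σ (3 / 4) with h3 | h3
      · exact headBCert3 h'' h1 h' h3
      · exact headBCert4 h'' h1 h3 h1σ
  rw [← hσ] at hE hcert
  have hxd : 0 < (15 + 9 * τ ^ 2) * (1 + τ ^ 2) ^ 4 * rd ^ 4 := by positivity
  set X := 217 / 128 * excLow τ r with hXdef
  set Y := 5 / 8 * X - 3 / 8 with hYdef
  have hB : excB τ (r * rd) rd = Y * ((15 + 9 * τ ^ 2) * (1 + τ ^ 2) ^ 4 * rd ^ 4) := by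
    rw [excB, excN_eq', hYdef, hXdef]; ring
  have hY : 0 ≤ Y := nonneg_of_mul_nonneg_left (hB ▸ hE) hxd
  have hX : 0 ≤ X := by linarith
  have hL : 0 ≤ excLow τ r := nonneg_of_mul_nonneg_right hX (by norm_num)
  have hk : 13733 / 16384 * (299 / 256) * ((3 + 2 * Y) / (3 + Y)) ≤ P ^ (1 / 3 : ℝ) := by
    refine le_rpow_third (by positivity) ?_
    rw [mul_pow, mul_pow]
    refine (mul_le_mul (mul_le_mul k0_cube
      (show (299 / 256 : ℝ) ^ 3 ≤ 8 / 5 by norm_num) (by norm_num) (by positivity))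
      (pade hY) (by positivity) (by positivity)).trans ?_
    have : 3 * π / 16 * X ≤ excLow τ r := by
      calc 3 * π / 16 * X = (217 / 128 * (3 * π / 16)) * excLow τ r := by rw [hXdef]; ring
        _ ≤ 1 * excLow τ r := mul_le_mul_of_nonneg_right k2_le hL
        _ = _ := one_mul _
    rw [show 3 * π / 16 * (8 / 5) * (1 + Y) = 3 * π / 16 + 3 * π / 16 * X by rw [hYdef]; ring]
    linarith
  have hq' := key (X := Y) hxd (show 0 < (1 + τ ^ 2) ^ 5 * rd ^ 7 by positivity) hY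
    hB (segBN_eq τ r) (qBN_eq τ r) hcert
  rw [loss_long (cc_sq_add τ) hr1, ← segB_eq]
  have hsB : 0 ≤ segB (cc τ) (ss τ) r := by rw [segB_eq]; positivity
  have hcu := mul_le_mul_of_nonneg_right cst5_le (cube_nonneg hc hq hr.le).2
  have h3 := mul_le_mul_of_nonneg_right (mul_le_mul_of_nonneg_left hk (by norm_num : (0:ℝ) ≤ 4)) hsB
  linarith

/-- Caps containing the point `(0, c + r q)`. -/
theorem headIneq {τ r P : ℝ} (h0 : 0 ≤ τ) (h1 : τ ≤ 1) (htr : τ ≤ r) (hrc : r * cc τ ≤ ss τ)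
    (hP : 3 * π / 16 + (excPoly (cc τ) (ss τ) r - 3 / 4 * arctan τ) ≤ P) :
    (∫ x in (0:ℝ)..r, lossK (cc τ) (ss τ) x) + r ^ 2 * seg (cc τ) (ss τ) r / 1000 ≤
      4 * P ^ (1 / 3 : ℝ) * (r ^ 2 * seg (cc τ) (ss τ) r) := by
  have hP' : 3 * π / 16 + excLow τ r ≤ P := by
    have := arctan_le_rational h0
    rw [excLow]; linarith
  rcases le_total 1 r with hr1 | hr1
  · exact head_long h0 h1 hr1 hrc hP'
  have hr : 0 ≤ r := h0.trans htr
  rcases le_or_gt τ (7 / 16) with hτ | hτ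
  · have hrc' : r * (1 - τ ^ 2) ≤ 2 * τ := by
      have hD : 0 < 1 + τ ^ 2 := by positivity
      simp only [cc, ss] at hrc
      rw [← mul_div_assoc, div_le_div_iff_of_pos_right hD] at hrc
      exact hrc
    obtain ⟨σ, hσ0, hσ1, hσ, hrd⟩ : ∃ σ, 0 ≤ σ ∧ σ ≤ 1 ∧
        r * (1 - σ * τ ^ 2) = τ * (1 + σ) ∧ 0 < 1 - σ * τ ^ 2 := by
      rcases h0.eq_or_lt with h | h
      · subst h
        have : r = 0 := by linarith
        exact ⟨0, le_rfl, zero_le_one, by simp [this], by simp⟩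
      have hp : 0 < τ * (1 + r * τ) := mul_pos h (by nlinarith)
      refine ⟨(r - τ) / (τ * (1 + r * τ)), div_nonneg (by linarith) hp.le,
        div_le_one_of_le₀ (by nlinarith) hp.le, ?_, ?_⟩
      · field_simp
        ring
      · rw [sub_pos, div_mul_eq_mul_div, div_lt_one hp]
        nlinarith
    exact head_short h0 h1 hr hr1 hrd hσ.symm (head1Exc h0 hτ hσ0 hσ1) (head1Cert h0 hτ hσ0 hσ1) hP'
  · obtain ⟨σ, hσ0, hσ1, hσ⟩ : ∃ σ, 0 ≤ σ ∧ σ ≤ 1 ∧ r = τ + σ * (1 - τ) := by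
      rcases h1.eq_or_lt with h | h
      · exact ⟨0, le_rfl, zero_le_one, by linarith⟩
      refine ⟨(r - τ) / (1 - τ), div_nonneg (by linarith) (by linarith),
        div_le_one_of_le₀ (by linarith) (by linarith), ?_⟩
      rw [div_mul_cancel₀ _ (by linarith : (1 - τ) ≠ 0)]
      ring
    exact head_short h0 h1 hr hr1 one_pos (by rw [mul_one]; exact hσ.symm)
      (head2Exc (by linarith) h1 hσ0 hσ1) (head2Cert (by linarith) h1 hσ0 hσ1) hP'

end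

end Vale.Agent.P237.Sharp.OneD5
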