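import Mathlib
import Vale.Agent.P237.Sharp.OneD4.Main
import Vale.Agent.P237.Sharp.OneD5.Union

/-!
# P237, sharp route in `ℝ⁵`: the one-dimensional inequality from monotonicity along caps

Every admissible profile is approximated from below by finite unions of caps; dominated convergence
passes the gap inequality to the limit and the slack `kap` gives the equality case.
-/

open MeasureTheory Set Real Filter Topology
open scoped Interval

namespace Vale.Agent.P237.Sharp.OneD5

open Vale.Agent.P237.Sharp.OneD3 (circ cap capSup circ_nonneg cap_antitone circ_le_capSup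
  cap_le_capSup capSup_le)
open Vale.Agent.P237.Sharp.OneD4 (Adm exists_cap_below good_capSup int_pow)

section

variable {f : ℝ → ℝ} (hf : ConcaveOn ℝ (Icc 0 1) f) (hm : AntitoneOn f (Icc 0 1))
  (hc : ∀ t ∈ Icc (0:ℝ) 1, circ t ≤ f t)

include hf hm hc in
/-- The gap inequality passes to the limit. -/
lemma gap_nonneg_of_union (h : ∀ S : Finset (ℝ × ℝ), (∀ p ∈ S, Adm p) → 0 ≤ gap (capSup S)) :
    0 ≤ gap f := by
  classical
  choose! P hP hPt hPle using fun t (ht : t ∈ Ioo (0:ℝ) 1) => exists_cap_below hf hm hc ht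
  set S : ℕ → Finset (ℝ × ℝ) := fun N => (Finset.Ioo 0 N).image fun i : ℕ => P ((i:ℝ) / N)
  have hgrid : ∀ {N i : ℕ}, 0 < i → i < N → (i:ℝ) / N ∈ Ioo (0:ℝ) 1 := fun {N i} hi hiN => by
    have hN : (0:ℝ) < N := by exact_mod_cast hi.trans hiN
    exact ⟨div_pos (by exact_mod_cast hi) hN, (div_lt_one hN).2 (by exact_mod_cast hiN)⟩
  have hS : ∀ N, ∀ p ∈ S N, Adm p := by
    intro N p hp
    obtain ⟨i, hi, rfl⟩ := Finset.mem_image.1 hp
    rw [Finset.mem_Ioo] at hi
    exact hP _ (hgrid hi.1 hi.2)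
  have hup : ∀ N, ∀ s ∈ Icc (0:ℝ) 1, capSup (S N) s ≤ f s := by
    intro N s hs
    refine capSup_le (hc s hs) fun p hp => ?_
    obtain ⟨i, hi, rfl⟩ := Finset.mem_image.1 hp
    rw [Finset.mem_Ioo] at hi
    exact hPle _ (hgrid hi.1 hi.2) s hs
  have hcont : ContinuousOn f (Ioo 0 1) := by
    have := hf.continuousOn_interior
    rwa [interior_Icc] at this
  have hlim : ∀ s ∈ Ioo (0:ℝ) 1, Tendsto (fun N => capSup (S N) s) atTop (𝓝 (f s)) := by
    intro s hs
    have hg : Tendsto (fun N : ℕ => (⌈s * N⌉₊ : ℝ) / N) atTop (𝓝 s) :=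
      (tendsto_nat_ceil_mul_div_atTop hs.1.le).comp tendsto_natCast_atTop_atTop
    have hfl : Tendsto (fun N : ℕ => f ((⌈s * N⌉₊ : ℝ) / N)) atTop (𝓝 (f s)) :=
      ((hcont.continuousAt (Ioo_mem_nhds hs.1 hs.2)).tendsto).comp hg
    refine tendsto_of_tendsto_of_tendsto_of_le_of_le' hfl tendsto_const_nhds ?_
      (Filter.Eventually.of_forall fun N => hup N s (Ioo_subset_Icc_self hs))
    filter_upwards [hg.eventually (gt_mem_nhds hs.2), eventually_gt_atTop 0] with N hN hN0
    set i := ⌈s * N⌉₊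
    have hN' : (0:ℝ) < N := by exact_mod_cast hN0
    have hi0 : 0 < i := Nat.ceil_pos.2 (mul_pos hs.1 hN')
    have hiN : i < N := by
      rw [div_lt_one hN'] at hN; exact_mod_cast hN
    have hsi : s ≤ (i:ℝ) / N := by
      rw [le_div_iff₀ hN']; exact Nat.le_ceil _
    have hmem : P ((i:ℝ) / N) ∈ S N :=
      Finset.mem_image.2 ⟨i, Finset.mem_Ioo.2 ⟨hi0, hiN⟩, rfl⟩
    have hg' := hgrid hi0 hiN
    have ha := hP _ hg'
    rw [← hPt _ hg']
    exact (cap_antitone ha.1 ha.2.1 ha.2.2 hs.1.le hsi hg'.2.le).trans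
      (cap_le_capSup hmem s)
  have hf0 : ∀ s ∈ Icc (0:ℝ) 1, f s ≤ f 0 := fun s hs => hm ⟨le_rfl, zero_le_one⟩ hs hs.1
  have hae : ∀ᵐ s : ℝ, s ∈ Ι (0:ℝ) 1 → s ∈ Ioo (0:ℝ) 1 := by
    filter_upwards [Measure.ae_ne volume (1:ℝ)] with s hs hI
    rw [uIoc_of_le zero_le_one] at hI
    exact ⟨hI.1, hI.2.lt_of_ne hs⟩
  have hbd : ∀ N, ∀ s ∈ Ι (0:ℝ) 1, 0 ≤ capSup (S N) s ∧ capSup (S N) s ≤ f 0 := fun N s hs => by
    rw [uIoc_of_le zero_le_one] at hs
    exact ⟨(circ_nonneg s).trans (circ_le_capSup _ s),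
      (hup N s (Ioc_subset_Icc_self hs)).trans (hf0 s (Ioc_subset_Icc_self hs))⟩
  have hJ : Tendsto (fun N => J (capSup (S N))) atTop (𝓝 (J f)) := by
    refine intervalIntegral.tendsto_integral_filter_of_dominated_convergence (fun _ => f 0 ^ 3)
      (.of_forall fun N => ((good_capSup (hS N)).1.pow_const 3).aestronglyMeasurable)
      (.of_forall fun N => .of_forall fun s hs => ?_) intervalIntegrable_const
      (hae.mono fun s hs hI => (hlim s (hs hI)).pow 3)
    rw [Real.norm_eq_abs, abs_pow, abs_of_nonneg (hbd N s hs).1]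
    exact pow_le_pow_left₀ (hbd N s hs).1 (hbd N s hs).2 3
  have hQ : Tendsto (fun N => Q (capSup (S N))) atTop (𝓝 (Q f)) := by
    refine intervalIntegral.tendsto_integral_filter_of_dominated_convergence
      (fun _ => |cst5| * f 0 ^ 4 + 111 / 250 * (f 0 ^ 4 * (4 + f 0 ^ 2)))
      (.of_forall fun N => (measurable_wfun (good_capSup (hS N)).1).aestronglyMeasurable)
      (.of_forall fun N => .of_forall fun s hs => ?_) intervalIntegrable_const
      (hae.mono fun s hs hI => ?_)
    · obtain ⟨g0, g1⟩ := hbd N s hs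
      rw [uIoc_of_le zero_le_one] at hs
      rw [Real.norm_eq_abs, wfun]
      refine (abs_add_le _ _).trans (add_le_add ?_ ?_)
      · rw [abs_mul, abs_pow, abs_of_nonneg g0]
        exact mul_le_mul_of_nonneg_left (pow_le_pow_left₀ g0 g1 4) (abs_nonneg _)
      · rw [abs_mul, abs_of_nonneg (by norm_num : (0:ℝ) ≤ 111 / 250)]
        exact mul_le_mul_of_nonneg_left
          (abs_momW_le (Ioc_subset_Icc_self hs) (by rwa [abs_of_nonneg g0])) (by norm_num)
    · exact ((continuous_wfun.tendsto (s, f s)).comp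
        (tendsto_const_nhds.prodMk_nhds (hlim s (hs hI))) :)
  exact ge_of_tendsto' (((hJ.rpow_const (Or.inr (by norm_num : (0:ℝ) ≤ 4 / 3))).sub hQ).sub
    ((hJ.sub_const (3 * π / 16)).const_mul kap)) fun N => h _ (hS N)

end

/-- The one-dimensional inequality behind Petty's inequality in `ℝ⁵`, from monotonicity along
single caps. -/
theorem oneD5_of
    (hmono : ∀ σ : ℝ, σ < π / 2 → MonotoneOn (fun b => gap (cap σ b)) (Ico 0 (π / 2))) :
    OneD5 := by
  intro f hf hm hc
  have hnn : ∀ t ∈ Icc (0:ℝ) 1, 0 ≤ f t := fun t ht => (circ_nonneg t).trans (hc t ht)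
  have hu : uIcc (0:ℝ) 1 = Icc 0 1 := uIcc_of_le zero_le_one
  have hint : ∀ n : ℕ, IntervalIntegrable (fun t => f t ^ n) volume 0 1 := fun n =>
    AntitoneOn.intervalIntegrable (hu ▸ fun x hx y hy hxy =>
      pow_le_pow_left₀ (hnn y hy) (hm hx hy hxy) n)
  have hg := gap_nonneg_of_union hf hm hc (gap_capSup_nonneg hmono)
  have haes : AEStronglyMeasurable f (volume.restrict (Ι (0:ℝ) 1)) := by
    simpa using ((intervalIntegrable_iff.1 (hint 1)).aestronglyMeasurable)
  have hmW : IntervalIntegrable (fun t => momW t (f t)) volume 0 1 := by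
    rw [intervalIntegrable_iff]
    have : IsFiniteMeasure ((volume : Measure ℝ).restrict (Ι (0:ℝ) 1)) := ⟨by simp⟩
    have hp : AEStronglyMeasurable (fun t : ℝ => (t, f t)) (volume.restrict (Ι (0:ℝ) 1)) :=
      aestronglyMeasurable_id.prodMk haes
    have hmm : AEStronglyMeasurable ((fun p : ℝ × ℝ => momW p.1 p.2) ∘ fun t => (t, f t))
        (volume.restrict (Ι (0:ℝ) 1)) := continuous_momW.comp_aestronglyMeasurable hp
    simp only [Function.comp_def] at hmm
    refine Integrable.of_bound hmm (f 0 ^ 4 * (4 + f 0 ^ 2)) ?_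
    refine (ae_restrict_iff' measurableSet_uIoc).2 (.of_forall fun t ht => ?_)
    rw [uIoc_of_le zero_le_one] at ht
    have ht' : t ∈ Icc (0:ℝ) 1 := Ioc_subset_Icc_self ht
    rw [Real.norm_eq_abs]
    exact abs_momW_le ht' (by
      rw [abs_of_nonneg (hnn t ht')]; exact hm ⟨le_rfl, zero_le_one⟩ ht' ht'.1)
  have hQ : Q f = cst5 * (∫ t in (0:ℝ)..1, f t ^ 4) +
      111 / 250 * ∫ t in (0:ℝ)..1, momW t (f t) := by
    rw [← intervalIntegral.integral_const_mul cst5,
      ← intervalIntegral.integral_const_mul (111 / 250 : ℝ),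
      ← intervalIntegral.integral_add ((hint 4).const_mul cst5) (hmW.const_mul _)]
    rfl
  rw [gap, hQ] at hg
  have hJ : 3 * π / 16 ≤ J f := by
    rw [← J_circ]
    exact intervalIntegral.integral_mono_on zero_le_one (int_pow OneD3.good_circ 3) (hint 3)
      fun t ht => pow_le_pow_left₀ (circ_nonneg t) (hc t ht) 3
  have hkJ : 0 ≤ kap * (J f - 3 * π / 16) := mul_nonneg (by norm_num [kap]) (by linarith)
  change _ ≤ J f ^ (4 / 3 : ℝ) ∧ (_ = J f ^ (4 / 3 : ℝ) → _)
  refine ⟨by linarith, fun e => ?_⟩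
  have h0 : J f = 3 * π / 16 := by
    have : kap * (J f - 3 * π / 16) = 0 := le_antisymm (by linarith) hkJ
    rcases mul_eq_zero.1 this with h' | h'
    · norm_num [kap] at h'
    · linarith
  have hzero : ∫ t in (0:ℝ)..1, (f t ^ 3 - circ t ^ 3) = 0 := by
    rw [intervalIntegral.integral_sub (hint 3) (int_pow OneD3.good_circ 3)]
    change J f - J circ = 0
    rw [J_circ, h0, sub_self]
  rw [intervalIntegral.integral_eq_zero_iff_of_le_of_nonneg_ae zero_le_one ?_
    ((hint 3).sub (int_pow OneD3.good_circ 3))] at hzero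
  · have hcont : ContinuousOn f (Ioo 0 1) := by
      have := hf.continuousOn_interior
      rwa [interior_Icc] at this
    have hcc : ContinuousOn circ (Ioo 0 1) :=
      (show Continuous circ by unfold circ; fun_prop).continuousOn
    refine Measure.eqOn_open_of_ae_eq (μ := volume) ?_ isOpen_Ioo hcont hcc
    filter_upwards [ae_restrict_of_ae_restrict_of_subset Ioo_subset_Ioc_self hzero,
      ae_restrict_mem measurableSet_Ioo] with t ht htI
    exact (pow_left_inj₀ (hnn t (Ioo_subset_Icc_self htI)) (circ_nonneg t) (by norm_num)).1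
      (sub_eq_zero.1 ht)
  · filter_upwards [ae_restrict_mem measurableSet_Ioc] with t ht
    exact sub_nonneg.2 (pow_le_pow_left₀ (circ_nonneg t) (hc t (Ioc_subset_Icc_self ht)) 3)

end Vale.Agent.P237.Sharp.OneD5
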