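import Mathlib
import Vale.Agent.P237.Sharp.OneD3.Mono
import Vale.Agent.P237.Sharp.OneD5.Ineq
import Vale.Agent.P237.Sharp.OneD5.Limit

/-!
# P237, sharp route in `ℝ⁵`: monotonicity of the gap along single caps

Along a cap the segment on the moving tangent has length `r` and
`d gap/db = 4 P^(1/3) r² seg - loss - r² seg/1000`, where `P ≥ 3π/16 + (explicit excess)`.
-/

open MeasureTheory Set Real

namespace Vale.Agent.P237.Sharp.OneD5

open Vale.Agent.P237.Sharp.OneD3 (cc ss circ tang cap capL circ_nonneg circ_le_cap cap_zero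
  cap_eq_circ cos_pos_of cc_tan_half ss_tan_half tan_le_tan_of_le seg_empty seg_head seg_flat)
open Vale.Agent.P237.Sharp.OneD4 (good_cap)

variable {σ b : ℝ}

lemma base_le_J (hσ : σ < π / 2) (hb0 : 0 ≤ b) (hb : b < π / 2) :
    3 * π / 16 ≤ J (cap σ b) := by
  rw [← J_circ]
  exact J_mono OneD3.good_circ (good_cap (p := (σ, b)) ⟨hσ, hb0, hb⟩) (fun t _ => circ_nonneg t)
    fun t ht => circ_le_cap ht.1 ht.2 hσ hb

/-- The derivatives along a cap, for a segment of length `r`. -/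
lemma derivs_cap {r : ℝ} (hσ : σ < π / 2) (hb0 : 0 ≤ b) (hb : b < π / 2) (hr : 0 ≤ r)
    (hrc : r * cos b ≤ sin b)
    (hin : ∀ t ∈ Ioo (sin b - r * cos b) (sin b), tang b t < capL σ t)
    (hout : ∀ t ∈ Ioo 0 (sin b - r * cos b), capL σ t < tang b t) :
    HasDerivAt (fun x => J (cap σ x)) (3 * r ^ 2 * seg (cos b) (sin b) r) b ∧
      HasDerivAt (fun x => gap (cap σ x))
        (4 * J (cap σ b) ^ (1 / 3 : ℝ) * (r ^ 2 * seg (cos b) (sin b) r) -
          (∫ x in (0:ℝ)..r, lossK (cos b) (sin b) x) - r ^ 2 * seg (cos b) (sin b) r / 1000) b := by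
  have hc := cos_pos_of hb0 hb
  obtain ⟨h1, h2⟩ := hasDerivAt_J_Q_cap hσ hb0 hb (sub_nonneg.2 hrc)
    (sub_le_self _ (mul_nonneg hr hc.le)) hin hout
  rw [integral_seg_J hc.ne'] at h1
  rw [integral_seg_Q hc.ne'] at h2
  refine ⟨h1, ?_⟩
  show HasDerivAt (fun x => J (cap σ x) ^ (4 / 3 : ℝ) - Q (cap σ x) -
    kap * (J (cap σ x) - 3 * π / 16)) _ b
  refine (((h1.rpow_const (p := (4 / 3 : ℝ)) (Or.inr (by norm_num))).sub h2).sub
    ((h1.sub_const (3 * π / 16)).const_mul kap)).congr_deriv ?_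
  rw [kap, show (4 / 3 : ℝ) - 1 = 1 / 3 by norm_num]
  ring

lemma half_angle (hb0 : 0 ≤ b) (hb : b < π / 2) :
    0 ≤ tan (b / 2) ∧ tan (b / 2) ≤ 1 ∧ cc (tan (b / 2)) = cos b ∧ ss (tan (b / 2)) = sin b := by
  have hpi := Real.pi_pos
  have hh : cos (b / 2) ≠ 0 := (cos_pos_of (by linarith) (by linarith)).ne'
  exact ⟨tan_zero ▸ tan_le_tan_of_le (by linarith) (by linarith) (by linarith),
    tan_pi_div_four ▸ tan_le_tan_of_le (by linarith) (by linarith) (by linarith),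
    cc_tan_half hh, ss_tan_half hh⟩

/-- The derivative of the lower bound for the excess along `σ ≥ 0`. -/
lemma hasDerivAt_low {x : ℝ} (hc : cos ((x - σ) / 2) ≠ 0) :
    HasDerivAt (fun z => lowMid (cos z) (sin z) (tan ((z - σ) / 2)) /
        (1 + tan ((z - σ) / 2) ^ 2))
      (3 * tan ((x - σ) / 2) ^ 2 * seg (cos x) (sin x) (tan ((x - σ) / 2)) -
        tan ((x - σ) / 2) ^ 2 * linPoly (cos x) (sin x) (tan ((x - σ) / 2)) /
          (1 + tan ((x - σ) / 2) ^ 2)) x := by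
  set r : ℝ → ℝ := fun z => tan ((z - σ) / 2)
  have hr : HasDerivAt r ((1 + r x ^ 2) / 2) x := by
    have h := (hasDerivAt_tan hc).comp x (((hasDerivAt_id x).sub_const σ).div_const 2)
    refine (HasDerivAt.congr_deriv h ?_ :)
    simp only [r, id]
    rw [← inv_one_add_tan_sq hc]
    have : (1 + tan ((x - σ) / 2) ^ 2) ≠ 0 := by positivity
    field_simp
  have hu : (1 + r x ^ 2) ≠ 0 := by positivity
  have hC := hasDerivAt_cos x
  have hS := hasDerivAt_sin x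
  show HasDerivAt (fun z => lowMid (cos z) (sin z) (r z) / (1 + r z ^ 2))
    (3 * r x ^ 2 * seg (cos x) (sin x) (r x) -
      r x ^ 2 * linPoly (cos x) (sin x) (r x) / (1 + r x ^ 2)) x
  have e : (fun z => lowMid (cos z) (sin z) (r z) / (1 + r z ^ 2)) = fun z =>
      r z ^ 3 * (cos z ^ 2 + 9 / 5 * (r z * (cos z * sin z)) +
        81 / 100 * (r z ^ 2 * sin z ^ 2)) / (1 + r z ^ 2) := by
    funext z; simp only [lowMid]; ring
  rw [e]
  refine (((hr.fun_pow 3).fun_mul (((hC.fun_pow 2).fun_add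
    ((hr.fun_mul (hC.fun_mul hS)).const_mul (9 / 5))).fun_add
    (((hr.fun_pow 2).fun_mul (hS.fun_pow 2)).const_mul (81 / 100)))).fun_div
    ((hr.fun_pow 2).const_add 1) hu).congr_deriv ?_
  simp only [seg, linPoly]
  push_cast
  field_simp
  ring

/-- For `σ ≥ 0` the gap grows along the cap. -/
lemma deriv_gap_pos (hσ0 : 0 ≤ σ) (hσ : σ < π / 2) (hb0 : 0 ≤ b) (hb : b < π / 2) :
    ∃ D, HasDerivAt (fun x => gap (cap σ x)) D b ∧ 0 ≤ D := by
  have hpi := Real.pi_pos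
  obtain ⟨hτ0, hτ1, hcc, hss⟩ := half_angle hb0 hb
  rcases le_or_gt b σ with hbσ | hσb
  · obtain ⟨-, h⟩ := derivs_cap hσ hb0 hb le_rfl
      (by rw [zero_mul]; exact sin_nonneg_of_nonneg_of_le_pi hb0 (by linarith))
      (fun t ht => by rw [zero_mul, sub_zero] at ht; exact absurd ht.1 ht.2.not_gt)
      (seg_empty hσ hb0 hbσ)
    exact ⟨_, h, by simp⟩
  have hder : ∀ x, σ ≤ x → x < π / 2 → HasDerivAt (fun x => J (cap σ x))
      (3 * tan ((x - σ) / 2) ^ 2 * seg (cos x) (sin x) (tan ((x - σ) / 2))) x := by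
    intro x hx hx'
    rcases hx.eq_or_lt with rfl | hx
    · rw [sub_self, zero_div, tan_zero]
      exact (derivs_cap hσ hσ0 hσ le_rfl
        (by rw [zero_mul]; exact sin_nonneg_of_nonneg_of_le_pi hσ0 (by linarith))
        (fun t ht => by rw [zero_mul, sub_zero] at ht; exact absurd ht.1 ht.2.not_gt)
        (seg_empty hσ hσ0 le_rfl)).1
    · obtain ⟨hr, hts, hi, ho⟩ := OneD3.seg_nonneg hσ0 hx hx'
      exact (derivs_cap hσ (hσ0.trans hx.le) hx' hr (sub_nonneg.1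
        ((sin_nonneg_of_nonneg_of_le_pi hσ0 (by linarith)).trans hts)) hi ho).1
  have hrτ : ∀ x, σ ≤ x → x < π / 2 →
      0 ≤ tan ((x - σ) / 2) ∧ tan ((x - σ) / 2) ≤ tan (x / 2) := fun x hx hx' =>
    ⟨tan_zero ▸ tan_le_tan_of_le (by linarith) (by linarith) (by linarith),
      tan_le_tan_of_le (by linarith) (by linarith) (by linarith)⟩
  set L : ℝ → ℝ := fun x => lowMid (cos x) (sin x) (tan ((x - σ) / 2)) /
    (1 + tan ((x - σ) / 2) ^ 2) with hL
  have hG : ∀ x ∈ Icc σ b, ∃ D, HasDerivAt (fun x => J (cap σ x) - L x) D x ∧ 0 ≤ D := by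
    intro x hx
    have hx' := hx.2.trans_lt hb
    have hc : cos ((x - σ) / 2) ≠ 0 := (cos_pos_of (by linarith [hx.1]) (by linarith)).ne'
    refine ⟨_, (hder x hx.1 hx').sub (hasDerivAt_low hc), ?_⟩
    obtain ⟨-, ht1, hxc, hxs⟩ := half_angle (hσ0.trans hx.1) hx'
    have h := linPoly_nonneg (hrτ x hx.1 hx').1 (hrτ x hx.1 hx').2 ht1
    rw [hxc, hxs] at h
    rw [sub_sub_cancel]
    positivity
  choose! D hD hD0 using hG
  have hmono : MonotoneOn (fun x => J (cap σ x) - L x) (Icc σ b) :=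
    monotoneOn_of_hasDerivWithinAt_nonneg (convex_Icc _ _)
      (fun x hx => (hD x hx).continuousAt.continuousWithinAt)
      (fun x hx => (hD x (interior_subset hx)).hasDerivWithinAt)
      fun x hx => hD0 x (interior_subset hx)
  have hJ := hmono (left_mem_Icc.2 hσb.le) (right_mem_Icc.2 hσb.le) hσb.le
  simp only [hL, sub_self, zero_div, tan_zero] at hJ
  rw [J_congr (g := circ) fun t ht => cap_eq_circ ht.1 ht.2 hσ0 hσ hσ le_rfl, J_circ] at hJ
  have e0 : lowMid (cos σ) (sin σ) 0 = 0 := by simp [lowMid]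
  rw [e0] at hJ
  simp only [zero_div, sub_zero] at hJ
  obtain ⟨hr, hts, hi, ho⟩ := OneD3.seg_nonneg hσ0 hσb hb
  obtain ⟨-, h⟩ := derivs_cap hσ hb0 hb hr (sub_nonneg.1
    ((sin_nonneg_of_nonneg_of_le_pi hσ0 (by linarith)).trans hts)) hi ho
  have hineq := midIneq (P := J (cap σ b)) (hrτ b hσb.le hb).1 (hrτ b hσb.le hb).2 hτ1
    (by rw [hcc, hss]; linarith)
  rw [hcc, hss] at hineq
  exact ⟨_, h, by linarith⟩

/-- The excess of a head cap, in closed form. -/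
noncomputable def excess (b r : ℝ) : ℝ := excPoly (cos b) (sin b) r - 3 / 8 * b

/-- The formula for the derivative of `excess` along `r = R b`, `R' = d`. -/
lemma hasDerivAt_excess {R : ℝ → ℝ} {d x : ℝ} (hR : HasDerivAt R d x) :
    HasDerivAt (fun z => excess z (R z))
      (((-3 / 8) + (1 / 2) * sin x ^ 2 + (-1 / 2) * cos x ^ 2 + (-1 / 8) * sin x ^ 4 +
        (7 / 8) * cos x ^ 4 + (-9 / 4) * cos x ^ 2 * sin x ^ 2 +
        (-3 / 4) * sin x ^ 2 * R x ^ 4 + (-3) * sin x ^ 4 * R x ^ 2 +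
        (3 / 4) * sin x ^ 4 * R x ^ 4 + (-2) * cos x * sin x * R x ^ 3 +
        (-6) * cos x * sin x ^ 3 * R x + (8) * cos x * sin x ^ 3 * R x ^ 3 +
        (-3 / 2) * cos x ^ 2 * R x ^ 2 + (27 / 2) * cos x ^ 2 * sin x ^ 2 * R x ^ 2 +
        (-9 / 4) * cos x ^ 2 * sin x ^ 2 * R x ^ 4 + (6) * cos x ^ 3 * sin x * R x +
        (-4) * cos x ^ 3 * sin x * R x ^ 3 + (-3 / 2) * cos x ^ 4 * R x ^ 2) +
        ((3) * sin x ^ 4 * R x ^ 2 + (6) * cos x * sin x ^ 3 * R x +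
        (-3) * cos x * sin x ^ 3 * R x ^ 3 + (3) * cos x ^ 2 * sin x ^ 2 +
        (-6) * cos x ^ 2 * sin x ^ 2 * R x ^ 2 + (-3) * cos x ^ 3 * sin x * R x) * d +
        3 * R x ^ 2 * seg (cos x) (sin x) (R x)) x := by
  have hC := hasDerivAt_cos x
  have hS := hasDerivAt_sin x
  have e : (fun z => excess z (R z)) = fun z =>
      (sin z - R z * cos z) * (cos z + R z * sin z) ^ 3 +
        cos z * (cos z ^ 3 * R z + 3 / 2 * (cos z ^ 2 * sin z * R z ^ 2) +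
          cos z * sin z ^ 2 * R z ^ 3 + 1 / 4 * (sin z ^ 3 * R z ^ 4)) -
        (1 / 2 * (sin z * cos z) + 1 / 8 * (sin z * cos z * (cos z ^ 2 - sin z ^ 2))) -
        3 / 8 * z := by
    funext z; simp only [excess, excPoly]; ring
  rw [e]
  refine ((((hS.fun_sub (hR.fun_mul hC)).fun_mul ((hC.fun_add (hR.fun_mul hS)).fun_pow 3)).fun_add
    (hC.fun_mul (((((hC.fun_pow 3).fun_mul hR).fun_add
      (((((hC.fun_pow 2).fun_mul hS).fun_mul (hR.fun_pow 2))).const_mul (3 / 2))).fun_add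
      ((hC.fun_mul (hS.fun_pow 2)).fun_mul (hR.fun_pow 3))).fun_add
      (((hS.fun_pow 3).fun_mul (hR.fun_pow 4)).const_mul (1 / 4))))).fun_sub
    (((hS.fun_mul hC).const_mul (1 / 2)).fun_add
      (((hS.fun_mul hC).fun_mul ((hC.fun_pow 2).fun_sub (hS.fun_pow 2))).const_mul (1 / 8)))
    ).fun_sub ((hasDerivAt_id' x).const_mul (3 / 8)) |>.congr_deriv ?_
  simp only [seg]
  push_cast
  ring

/-- While the segment reaches the axis. -/
lemma excess_deriv_head {c q R : ℝ} (hc : c ≠ 0) (h : c ^ 2 + q ^ 2 = 1) (hR : R * c = q) :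
    ((-3 / 8) + (1 / 2) * q ^ 2 + (-1 / 2) * c ^ 2 + (-1 / 8) * q ^ 4 + (7 / 8) * c ^ 4 +
      (-9 / 4) * c ^ 2 * q ^ 2 + (-3 / 4) * q ^ 2 * R ^ 4 + (-3) * q ^ 4 * R ^ 2 +
      (3 / 4) * q ^ 4 * R ^ 4 + (-2) * c * q * R ^ 3 + (-6) * c * q ^ 3 * R +
      (8) * c * q ^ 3 * R ^ 3 + (-3 / 2) * c ^ 2 * R ^ 2 + (27 / 2) * c ^ 2 * q ^ 2 * R ^ 2 +
      (-9 / 4) * c ^ 2 * q ^ 2 * R ^ 4 + (6) * c ^ 3 * q * R + (-4) * c ^ 3 * q * R ^ 3 +
      (-3 / 2) * c ^ 4 * R ^ 2) +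
      ((3) * q ^ 4 * R ^ 2 + (6) * c * q ^ 3 * R + (-3) * c * q ^ 3 * R ^ 3 +
      (3) * c ^ 2 * q ^ 2 + (-6) * c ^ 2 * q ^ 2 * R ^ 2 + (-3) * c ^ 3 * q * R) * (1 + R ^ 2) = 0 := by
  refine mul_left_cancel₀ (pow_ne_zero 5 hc) ?_
  rw [mul_zero]
  linear_combination ((3 / 4) * c * q ^ 6 + (2) * c ^ 3 * q ^ 4 + (3 / 8) * c ^ 5 +
      (11 / 8) * c ^ 5 * q ^ 2 + (7 / 8) * c ^ 7) * h +
    ((-3 / 4) * c * q ^ 5 + (3 / 4) * c * q ^ 7 + (-3 / 4) * c ^ 2 * q ^ 4 * R +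
      (3 / 4) * c ^ 2 * q ^ 6 * R + (-2) * c ^ 3 * q ^ 3 + (-3 / 4) * c ^ 3 * q ^ 3 * R ^ 2 +
      (11 / 4) * c ^ 3 * q ^ 5 + (3 / 4) * c ^ 3 * q ^ 5 * R ^ 2 + (-2) * c ^ 4 * q ^ 2 * R +
      (-3 / 4) * c ^ 4 * q ^ 2 * R ^ 3 + (11 / 4) * c ^ 4 * q ^ 4 * R +
      (3 / 4) * c ^ 4 * q ^ 4 * R ^ 3 + (-3 / 2) * c ^ 5 * q + (-2) * c ^ 5 * q * R ^ 2 +
      (7 / 2) * c ^ 5 * q ^ 3 + (11 / 4) * c ^ 5 * q ^ 3 * R ^ 2 +
      (-3) * c ^ 5 * q ^ 3 * R ^ 4 + (-3 / 2) * c ^ 6 * R + (7 / 2) * c ^ 6 * q ^ 2 * R +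
      (-33 / 4) * c ^ 6 * q ^ 2 * R ^ 3 + (3 / 2) * c ^ 7 * q + (-7) * c ^ 7 * q * R ^ 2 +
      (-3 / 2) * c ^ 8 * R) * hR

/-- After the segment has left the axis. -/
lemma excess_deriv_flat {c q R d : ℝ} (hq : q ≠ 0) (h : c ^ 2 + q ^ 2 = 1)
    (hd : d * q = q - R * c) :
    ((-3 / 8) + (1 / 2) * q ^ 2 + (-1 / 2) * c ^ 2 + (-1 / 8) * q ^ 4 + (7 / 8) * c ^ 4 +
      (-9 / 4) * c ^ 2 * q ^ 2 + (-3 / 4) * q ^ 2 * R ^ 4 + (-3) * q ^ 4 * R ^ 2 +
      (3 / 4) * q ^ 4 * R ^ 4 + (-2) * c * q * R ^ 3 + (-6) * c * q ^ 3 * R +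
      (8) * c * q ^ 3 * R ^ 3 + (-3 / 2) * c ^ 2 * R ^ 2 + (27 / 2) * c ^ 2 * q ^ 2 * R ^ 2 +
      (-9 / 4) * c ^ 2 * q ^ 2 * R ^ 4 + (6) * c ^ 3 * q * R + (-4) * c ^ 3 * q * R ^ 3 +
      (-3 / 2) * c ^ 4 * R ^ 2) +
      ((3) * q ^ 4 * R ^ 2 + (6) * c * q ^ 3 * R + (-3) * c * q ^ 3 * R ^ 3 +
      (3) * c ^ 2 * q ^ 2 + (-6) * c ^ 2 * q ^ 2 * R ^ 2 + (-3) * c ^ 3 * q * R) * d = 0 := by
  refine mul_left_cancel₀ hq ?_
  rw [mul_zero]
  linear_combination ((3 / 8) * q + (-1 / 8) * q ^ 3 + (3 / 4) * q ^ 3 * R ^ 4 +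
      (2) * c * q ^ 2 * R ^ 3 + (7 / 8) * c ^ 2 * q + (3 / 2) * c ^ 2 * q * R ^ 2) * h +
    ((3) * q ^ 4 * R ^ 2 + (6) * c * q ^ 3 * R + (-3) * c * q ^ 3 * R ^ 3 +
      (3) * c ^ 2 * q ^ 2 + (-6) * c ^ 2 * q ^ 2 * R ^ 2 + (-3) * c ^ 3 * q * R) * hd

/-- For `σ < 0` the gap grows along the cap. -/
lemma deriv_gap_neg (hσ0 : σ < 0) (hb0 : 0 ≤ b) (hb : b < π / 2) :
    ∃ D, HasDerivAt (fun x => gap (cap σ x)) D b ∧ 0 ≤ D := by
  have hpi := Real.pi_pos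
  have hσ : σ < π / 2 := by linarith
  set y := 1 - σ with hy
  have hy1 : 1 < y := by rw [hy]; linarith
  set b₀ := arccos (1 / y) with hb₀
  have hy0 : 1 / y ∈ Ioo (0:ℝ) 1 := ⟨by positivity, by rw [div_lt_one (by linarith)]; exact hy1⟩
  have hb₀0 : 0 < b₀ := arccos_pos.2 hy0.2
  have hb₀1 : b₀ < π / 2 := arccos_lt_pi_div_two.2 hy0.1
  have hcb₀ : cos b₀ = 1 / y := cos_arccos (by linarith [hy0.1]) hy0.2.le
  have hle : ∀ x, 0 ≤ x → x ≤ b₀ → 1 ≤ y * cos x := fun x hx hx' => by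
    have := cos_le_cos_of_nonneg_of_le_pi hx (by linarith) hx'
    rw [hcb₀, div_le_iff₀ (by linarith)] at this
    linarith
  have hge : ∀ x, b₀ ≤ x → x < π / 2 → y * cos x ≤ 1 := fun x hx hx' => by
    have := cos_le_cos_of_nonneg_of_le_pi hb₀0.le (by linarith) hx
    rw [hcb₀, le_div_iff₀ (by linarith)] at this
    linarith
  have htan : ∀ x, 0 ≤ x → x < π / 2 → 0 ≤ tan x := fun x hx hx' =>
    tan_zero ▸ tan_le_tan_of_le (by linarith) hx' hx
  have hd1 : ∀ x, 0 ≤ x → x ≤ b₀ → x < π / 2 →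
      HasDerivAt (fun x => J (cap σ x)) (3 * tan x ^ 2 * seg (cos x) (sin x) (tan x)) x ∧
        HasDerivAt (fun x => gap (cap σ x))
          (4 * J (cap σ x) ^ (1 / 3 : ℝ) * (tan x ^ 2 * seg (cos x) (sin x) (tan x)) -
            (∫ z in (0:ℝ)..tan x, lossK (cos x) (sin x) z) -
            tan x ^ 2 * seg (cos x) (sin x) (tan x) / 1000) x := by
    intro x hx hx' hx''
    have hc := (cos_pos_of hx hx'').ne'
    exact derivs_cap hσ hx hx'' (htan x hx hx'') (le_of_eq (tan_mul_cos hc))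
      (seg_head hσ0 hx hx'' (hle x hx hx'))
      fun t ht => absurd (tan_mul_cos hc ▸ ht.2) (by rw [sub_self]; exact ht.1.not_gt)
  have hJ1 : ∀ x, 0 ≤ x → x ≤ b₀ → J (cap σ x) = 3 * π / 16 + excess x (tan x) := by
    intro x hx hx'
    have hG : ∀ z ∈ Icc 0 x, HasDerivAt (fun z => J (cap σ z) - excess z (tan z)) 0 z := by
      intro z hz
      have hz' : z < π / 2 := by linarith [hz.2]
      have hc := (cos_pos_of hz.1 hz').ne'
      have ht : HasDerivAt tan (1 + tan z ^ 2) z := by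
        refine (hasDerivAt_tan hc).congr_deriv ?_
        rw [← inv_one_add_tan_sq hc, one_div, inv_inv]
      refine ((hd1 z hz.1 (hz.2.trans hx') hz').1.sub (hasDerivAt_excess ht)).congr_deriv ?_
      linear_combination (-1 : ℝ) * excess_deriv_head hc (cos_sq_add_sin_sq z) (tan_mul_cos hc)
    have h := constant_of_has_deriv_right_zero
      (fun z hz => (hG z hz).continuousAt.continuousWithinAt)
      (fun z hz => (hG z (Ico_subset_Icc_self hz)).hasDerivWithinAt) x ⟨hx, le_rfl⟩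
    simp only [tan_zero] at h
    rw [J_congr (g := circ) fun t ht => cap_zero ht.1 ht.2 hσ, J_circ] at h
    have e : excess 0 0 = 0 := by simp [excess, excPoly]
    linarith
  obtain ⟨hτ0, hτ1, hcc, hss⟩ := half_angle hb0 hb
  have hatan : arctan (tan (b / 2)) = b / 2 := arctan_tan (by linarith) (by linarith)
  have hfin : ∀ r, tan (b / 2) ≤ r → r * cos b ≤ sin b →
      J (cap σ b) = 3 * π / 16 + excess b r →
      0 ≤ 4 * J (cap σ b) ^ (1 / 3 : ℝ) * (r ^ 2 * seg (cos b) (sin b) r) -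
        (∫ x in (0:ℝ)..r, lossK (cos b) (sin b) x) - r ^ 2 * seg (cos b) (sin b) r / 1000 := by
    intro r h1 h2 h3
    have h := headIneq (P := J (cap σ b)) hτ0 hτ1 h1 (by rw [hcc, hss]; exact h2)
      (by rw [hcc, hss, hatan, h3, excess]; linarith)
    rw [hcc, hss] at h
    linarith
  have hc := cos_pos_of hb0 hb
  rcases le_or_gt b b₀ with hbb | hbb
  · exact ⟨_, (hd1 b hb0 hbb hb).2, hfin _
      (tan_le_tan_of_le (x := b / 2) (y := b) (by linarith) hb (by linarith))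
      (tan_mul_cos hc.ne').le (hJ1 b hb0 hbb)⟩
  · -- after the segment has left the axis
    set R : ℝ → ℝ := fun x => (y - cos x) / sin x with hR
    have hd2 : ∀ x, b₀ ≤ x → x < π / 2 →
        HasDerivAt (fun x => J (cap σ x)) (3 * R x ^ 2 * seg (cos x) (sin x) (R x)) x ∧
          HasDerivAt (fun x => gap (cap σ x))
            (4 * J (cap σ x) ^ (1 / 3 : ℝ) * (R x ^ 2 * seg (cos x) (sin x) (R x)) -
              (∫ z in (0:ℝ)..R x, lossK (cos x) (sin x) z) -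
              R x ^ 2 * seg (cos x) (sin x) (R x) / 1000) x := by
      intro x hx hx'
      have hx0 := hb₀0.le.trans hx
      obtain ⟨-, hrτ, hrc, -, hi, ho⟩ := seg_flat hσ0 hx0 hx' (hge x hx hx')
      exact derivs_cap hσ hx0 hx' ((htan _ (by linarith) (by linarith)).trans hrτ) hrc hi ho
    have hG : ∀ x ∈ Icc b₀ b, HasDerivAt (fun x => J (cap σ x) - excess x (R x)) 0 x := by
      intro x hx
      have hx' := hx.2.trans_lt hb
      have hq : sin x ≠ 0 :=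
        (sin_pos_of_pos_of_lt_pi (hb₀0.trans_le hx.1) (by linarith)).ne'
      have hR' : HasDerivAt R ((sin x - R x * cos x) / sin x) x := by
        refine (((hasDerivAt_cos x).const_sub y).div (hasDerivAt_sin x) hq).congr_deriv ?_
        simp only [hR]
        field_simp
      refine ((hd2 x hx.1 hx').1.sub (hasDerivAt_excess hR')).congr_deriv ?_
      linear_combination (-1 : ℝ) * excess_deriv_flat hq (cos_sq_add_sin_sq x)
        (div_mul_cancel₀ (sin x - R x * cos x) hq)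
    have h0 := constant_of_has_deriv_right_zero
      (fun x hx => (hG x hx).continuousAt.continuousWithinAt)
      (fun x hx => (hG x (Ico_subset_Icc_self hx)).hasDerivWithinAt) b ⟨hbb.le, le_rfl⟩
    simp only [hJ1 b₀ hb₀0.le le_rfl] at h0
    have hs₀ : 0 < sin b₀ := sin_pos_of_pos_of_lt_pi hb₀0 (by linarith)
    have hc₀ : cos b₀ ≠ 0 := by rw [hcb₀]; exact hy0.1.ne'
    have e0 : R b₀ = tan b₀ := by
      simp only [hR]
      rw [tan_eq_sin_div_cos, div_eq_div_iff hs₀.ne' hc₀]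
      have hyc : y * cos b₀ = 1 := by rw [hcb₀]; field_simp
      linear_combination hyc - sin_sq_add_cos_sq b₀
    rw [e0] at h0
    obtain ⟨-, hrτ, hrc, -, -, -⟩ := seg_flat hσ0 hb0 hb (hge b hbb.le hb)
    rw [← hy] at hrτ hrc
    exact ⟨_, (hd2 b hbb.le hb).2, hfin _ hrτ hrc (by linarith)⟩

/-- The gap grows along every admissible cap. -/
theorem gap_cap_monotoneOn (hσ : σ < π / 2) :
    MonotoneOn (fun b => gap (cap σ b)) (Ico 0 (π / 2)) := by
  have hex : ∀ x ∈ Ico 0 (π / 2), ∃ D, HasDerivAt (fun x => gap (cap σ x)) D x ∧ 0 ≤ D := by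
    intro x hx
    rcases lt_or_ge σ 0 with h | h
    · exact deriv_gap_neg h hx.1 hx.2
    · exact deriv_gap_pos h hσ hx.1 hx.2
  choose! D hD hD0 using hex
  exact monotoneOn_of_hasDerivWithinAt_nonneg (convex_Ico _ _)
    (fun x hx => (hD x hx).continuousAt.continuousWithinAt)
    (fun x hx => (hD x (interior_subset hx)).hasDerivWithinAt)
    fun x hx => hD0 x (interior_subset hx)

/-- The one-dimensional inequality behind Petty's inequality in `ℝ⁵`. -/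
theorem oneD5 : OneD5 := oneD5_of fun _ h => gap_cap_monotoneOn h

end Vale.Agent.P237.Sharp.OneD5
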